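import Crest.Agent.N49.Ho.Grid
import Crest.Agent.N49.Tw.Ap2
import Crest.Agent.N49.Tw.Iso
import Crest.Agent.N49.Br.Vis
import Crest.Agent.N49.Top.Sd

/-!
# Row 49 (helper1): one vertex for admissible twists; real centres are twists
-/

set_option autoImplicit false
set_option linter.unusedSectionVars false

open Matrix MvPolynomial Finset Function

noncomputable section

namespace Crest.Agent.N49.Ho

open Po Tw Br N49.Top

section off
variable {σ τ : Type} [DecidableEq σ] {T : TS σ} {S : Sh σ τ} {st : T.C → ℕ}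

/-- the twist with real centres `x` -/
def ot (Ψ : T.Twd S) (x : T.Cw S → ℝ) : T.Twd S := fun F => Ψ F - MvPolynomial.C (T.Yw S x F)

theorem off_Φ (o : S.Ok) (Ψ : T.Twd S) (x : T.Cw S → ℝ) :
    (T.tw S (ot Ψ x)).Φ = ((T.tw S Ψ).off x).Φ := funext fun p : T.Cw S => by
    change S.cf (MvPolynomial (T.Cw S) ℝ) _ (eval₂ _ _ (Ψ _ - MvPolynomial.C _)) =
      S.cf (MvPolynomial (T.Cw S) ℝ) _ _ - (MvPolynomial.C (x p) : MvPolynomial (T.Cw S) ℝ)
    rw [eval₂_sub, map_sub, eval₂_C, TS.map_Yw, TS.cf_Yw o]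
    rfl

theorem tw_off (o : S.Ok) (Ψ : T.Twd S) (x : T.Cw S → ℝ) :
    T.tw S (ot Ψ x) = (T.tw S Ψ).off x := congrArg (fun Φ => (T.tw S Ψ).setΦ Φ) (off_Φ o Ψ x)

theorem adm_ot (hT : T.Tri) {Ψ : T.Twd S} (h : T.Adm S st Ψ) (x : T.Cw S → ℝ) :
    T.Adm S st (ot Ψ x) where
  gr F m := by
    classical
    rw [ot, coeff_sub, coeff_C]
    refine (h.gr F m).sub ?_
    split_ifs with e
    · subst e; simpa using TS.Yw_dg x F
    · exact isWeightedHomogeneous_zero ..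
  le F m hm := by
    classical
    by_cases e : 0 = m
    · subst e; simp
    · exact h.le F m (by simpa [ot, coeff_C, e] using hm)
  top F m hm := by
    classical
    have : 0 ≠ m := by
      rintro rfl
      exact (hT.lev_pos F).ne (by simpa using hm)
    rw [ot, coeff_sub, coeff_C, if_neg this, sub_zero, h.top F m hm]

/-- narrowing the kernel of the shape: the member is a twisted law -/
theorem nar_tw {M : ℕ} (hs : T.Stg st M) {Ψ : T.Twd S} (h : T.Adm S st Ψ) (o : S.Ok)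
    {K : Matrix S.W S.W ℝ} (o' : (S.setK K).Ok) (hK : (T.kw S T.K (S.K - K)).PosSemidef)
    {g : (T.Cw S → ℤ) → ℝ} (hg : Bb g) : ∃ x : T.Cw S → ℝ,
      T.Adm (S.setK K) st (ot Ψ x) ∧ (T.tw S Ψ).N g ≤ (T.tw (S.setK K) (ot Ψ x)).N g := by
  have a : T.Adm (S.setK K) st Ψ := ⟨h.gr, h.le, h.top⟩
  obtain ⟨x, -, hx⟩ := (TS.tw_tri hs.cl h o).nar_psd (K1 := T.kw S T.K K)
    (TS.tw_tri hs.cl a o').pd
    ((show T.kw S T.K (S.K - K) = T.kw S T.K S.K - T.kw S T.K K from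
      Matrix.ext fun p p' => mul_sub ..) ▸ hK :) hg
  refine ⟨x, adm_ot hs.cl.1 a x, hx.trans_eq ?_⟩
  exact (congrArg (fun Φ => ((T.tw (S.setK K) Ψ).setΦ Φ).N g) (off_Φ (S := S.setK K) o' Ψ x)).symm

end off

variable {ι : Type} [Fintype ι] [LinearOrder ι] {s : ℕ} {D : Finset (Pt ι)} {q q' : ι → ℕ}
  {V : ℕ → Pt ι → ℝ} {T : TS Unit} {st : T.C → ℕ} {M : ℕ}

theorem vx_eq {ω : Pt ι} (h : ω ∈ pts q) {x : Wd s (grid q)} : x = vx h x ↔ Le x.tr ω :=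
  ⟨fun e => e ▸ rs_le ω _, fun k => wd_ext rfl k.eq_rs⟩

theorem chi_vx {ω ω₀ : Pt ι} (h : ω ∈ pts q) (h₀ : ω₀ ∈ pts q') :
    chi (s := s) (D := grid q) V ω ᵥ* pj (vx h₀) = chi (D := grid q') V ω₀ := by
  funext x
  rw [vecMul, dotProduct, sum_eq_single (vx h x) (fun w _ n => ?_) (by simp)]
  · simp only [chi, pj, of_apply, vx_vx, ← vx_eq h, ← vx_eq h₀]
    simp
  · by_cases k : Le w.tr ω
    · rw [pj, of_apply, if_neg, mul_zero]
      rintro rfl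
      exact n (((vx_eq h).2 k).trans (vx_vx ..).symm)
    · simp [chi, k]

theorem eval_hA {σ τ τ' : Type} {S : Sh σ τ} {S' : Sh σ τ'} (φ : Matrix S'.W S.W ℤ) (χ : S'.W → ℤ)
    (P : MvPolynomial S.W ℝ) : MvPolynomial.eval (fun w => (χ w : ℝ)) (S.pu S' φ P) =
      MvPolynomial.eval (fun w => ((χ ᵥ* φ) w : ℝ)) P := by
  have : (MvPolynomial.eval fun w => (χ w : ℝ)).comp (S.pu S' φ) =
      MvPolynomial.eval fun w => ((χ ᵥ* φ) w : ℝ) := by
    ext x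
    · simp [Sh.pu]
    · simp [Sh.pu_eq, hA_X', Sh.el, vecMul, dotProduct, mul_comm]
  exact DFunLike.congr_fun this P

theorem ev_tp {σ τ τ' : Type} [DecidableEq σ] {T : TS σ} {S : Sh σ τ} {S' : Sh σ τ'}
    (φ : Matrix S'.W S.W ℤ) (χ : S'.W → ℤ) (Ψ : T.Twd S) (F : T.C) :
    MvPolynomial.map (MvPolynomial.eval fun w => (χ w : ℝ)) (T.tp S S' φ Ψ F) =
      MvPolynomial.map (MvPolynomial.eval fun w => ((χ ᵥ* φ) w : ℝ)) (Ψ F) := by
  rw [TS.tp, MvPolynomial.map_map]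
  exact congrArg (MvPolynomial.map · _) (RingHom.ext (eval_hA φ χ))

theorem gr_ok {v : ℕ → Finset ι → ℝ} (hv : ∀ j B, 0 < v j B) : (gr s q v).Ok :=
  tw_ok (V := fun j w => v j (bl w)) (dc_grid q) fun _ _ => hv _ _

/-- **(U1)** Gowers–Hölder in the top-word ring: the twist and the function of one vertex -/
theorem unif_adm {v : ℕ → Finset ι → ℝ} (hq : ∀ i, 0 < q i) (hv : ∀ j B, 0 < v j B)
    (hs : T.Stg st M) {Ψ : T.Twd (gr s q v)} (hΨ : T.Adm _ st Ψ) {f : Pt ι → (T.C → ℤ) → ℝ}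
    (n1 : ∀ ω y, 0 ≤ f ω y) (b1 : ∀ ω, Bb (f ω)) :
    ∃ ω₀ ∈ pts q, ∃ Ψ' : T.Twd (gr s q v), T.Adm _ st Ψ' ∧
      (∀ ω ∈ pts q, ∀ F, MvPolynomial.map (MvPolynomial.eval fun w => (gp s q v ω w : ℝ)) (Ψ' F) =
        MvPolynomial.map (MvPolynomial.eval fun w => (gp s q v ω₀ w : ℝ)) (Ψ F)) ∧
      (T.tw _ Ψ).S (PF T s q v f) ≤ (T.tw _ Ψ').S (PF T s q v fun _ => f ω₀) := by
  obtain ⟨ω₀, h, a, k⟩ := unif_grid (s := s) (V := fun j w => v j (bl w)) (st := st) hq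
    (fun j i a w => by rw [bl_rep]) (P := T.Adm _ st) (fun _ h => TS.lw_tri hs h (gr_ok hv))
    (fun _ _ m h => h.tp m.dg) hΨ n1 b1
  exact ⟨ω₀, h, _, a, fun ω hω F => (ev_tp _ _ Ψ F).trans (congrArg (fun χ : (gr s q v).W → ℤ =>
    MvPolynomial.map (MvPolynomial.eval fun w => (χ w : ℝ)) (Ψ F)) (chi_vx hω h)), k⟩

end Crest.Agent.N49.Ho

end
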