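import Crest.Agent.N49.Ho.Core
import Crest.Agent.N49.Tw.Exp
import Crest.Agent.N49.Tw.Db0

/-!
# Row 49 (helper1): structures made of independent clones glued along a common part
(`ι` = the clones of one block, or the points of a grid); Fubini, Gowers–Hölder pick, regridding
-/

set_option autoImplicit false
set_option linter.unusedSectionVars false

open Matrix Finset Function

noncomputable section

namespace Crest.Agent.N49.Ho

open Po Tw Tw.Db

theorem qf_inv_fac {C C0 C1 ι : Type} [Fintype C] [DecidableEq C] [Fintype C0] [DecidableEq C0]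
    [Fintype C1] [DecidableEq C1] [Fintype ι] (e : C0 ⊕ ι × C1 ≃ C) {M : Matrix C C ℝ}
    (hM : M.PosDef) (h01 : ∀ c q, M (e (.inl c)) (e (.inr q)) = 0)
    (h11 : ∀ q q' : ι × C1, q.1 ≠ q'.1 → M (e (.inr q)) (e (.inr q')) = 0) (x : C → ℝ) :
    qf M⁻¹ x = qf (M.submatrix (fun c => e (.inl c)) fun c => e (.inl c))⁻¹
        (fun c => x (e (.inl c))) +
      ∑ a, qf (M.submatrix (fun c => e (.inr (a, c))) fun c => e (.inr (a, c)))⁻¹
        fun c => x (e (.inr (a, c))) := by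
  have p0 : (M.submatrix (fun c => e (.inl c)) fun c => e (.inl c)).PosDef :=
    hM.submatrix fun _ _ h => by simpa using h
  have p1 : ∀ a, (M.submatrix (fun c => e (.inr (a, c))) fun c => e (.inr (a, c))).PosDef :=
    fun a => hM.submatrix fun _ _ h => by simpa using h
  have sy : ∀ i j, M i j = M j i := fun i j => by
    conv_lhs => rw [← tr_eq hM]
    rfl
  set w : C → ℝ := fun i => Sum.elim
    ((M.submatrix (fun c => e (.inl c)) fun c => e (.inl c))⁻¹ *ᵥ fun c => x (e (.inl c)))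
    (fun q : ι × C1 => ((M.submatrix (fun c => e (.inr (q.1, c))) fun c => e (.inr (q.1, c)))⁻¹ *ᵥ
      fun c => x (e (.inr (q.1, c)))) q.2) (e.symm i) with hw
  have k : M *ᵥ w = x := by
    ext i
    obtain ⟨j, rfl⟩ := e.surjective i
    rw [mulVec, dotProduct, ← e.sum_comp, Fintype.sum_sum_type, Fintype.sum_prod_type]
    simp only [hw, Equiv.symm_apply_apply, Sum.elim_inl, Sum.elim_inr]
    rcases j with c | ⟨a, c⟩
    · simp only [h01, zero_mul, sum_const_zero, add_zero]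
      exact congrFun (mulVec_inv p0 fun c => x (e (.inl c))) c
    · rw [sum_eq_zero fun c' _ => by rw [sy, h01, zero_mul], zero_add, sum_eq_single a
        (fun b _ hb => sum_eq_zero fun c' _ => by rw [h11 (a, c) (b, c') hb.symm, zero_mul])
        (by simp)]
      exact congrFun (mulVec_inv (p1 a) fun c => x (e (.inr (a, c)))) c
  have k' : M⁻¹ *ᵥ x = w := by rw [← k, inv_mulVec hM]
  rw [qf, k', dotProduct, ← e.sum_comp, Fintype.sum_sum_type, Fintype.sum_prod_type]
  simp only [hw, Equiv.symm_apply_apply, Sum.elim_inl, Sum.elim_inr]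
  rfl

variable {σ σ' ι ι' C : Type} [Fintype ι] [Fintype ι'] [Fintype C] [DecidableEq C]

/-- `T` is made of the clones `a : ι` with data `(u a, K a)` on `C`, glued along `p` -/
structure Cln (T : TS σ) (p : C → Prop) (em : ι → C → T.C) (u : ι → (C → ℝ) → C → ℝ)
    (K : ι → Matrix C C ℝ) : Prop where
  inj : ∀ a, Injective (em a)
  com : ∀ a a' c, p c → em a c = em a' c
  dis : ∀ a a' c c', ¬ p c → em a c = em a' c' → a = a'
  sur : ∀ x, ∃ a c, em a c = x
  hu : ∀ y a c, T.u y (em a c) = u a (fun c => y (em a c)) c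
  low : ∀ a y y', (∀ c, p c → y c = y' c) → ∀ c, p c → u a y c = u a y' c
  hK : ∀ a c c', T.K (em a c) (em a c') = K a c c'
  hK0 : ∀ a a' c c', a ≠ a' → ¬ p c → ¬ p c' → T.K (em a c) (em a' c') = 0
  sep : ∀ a c c', p c → ¬ p c' → K a c c' = 0

section
variable (p : C → Prop) [DecidablePred p] (u : (C → ℝ) → C → ℝ) (K : Matrix C C ℝ)

/-- the weight of the common part -/
def rho (r : {c // p c} → ℤ) : ℝ := gs (pp p K)⁻¹ fun c => u (zc (mg p r 0)) c
/-- the weight of one clone -/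
def kap (r : {c // p c} → ℤ) (v : {c // ¬ p c} → ℤ) : ℝ :=
  gs (pp (fun c => ¬ p c) K)⁻¹ fun c => u (zc (mg p r v)) c

theorem rho_pos (r : {c // p c} → ℤ) : 0 < rho p u K r := gs_pos _ _
theorem kap_pos (r : {c // p c} → ℤ) (v : {c // ¬ p c} → ℤ) : 0 < kap p u K r v := gs_pos _ _
end

theorem rho_cut (T : TS σ) (p : T.C → Prop) [DecidablePred p] :
    rho p T.u T.K = (T.cut p 0).wt := by
  funext r
  refine congrArg (gs _) (funext fun c => ?_)
  rw [TS.u_cut]
  congr 1
  funext c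
  by_cases h : p c <;> simp [mg, glue, h, zc]

theorem kap_cut (T : TS σ) (p : T.C → Prop) [DecidablePred p] (r : {c // p c} → ℤ) :
    kap p T.u T.K r = (T.cut (fun c => ¬ p c) (glue p r 0)).wt := by
  funext v
  refine congrArg (gs _) (funext fun c => ?_)
  rw [TS.u_cut]
  congr 1
  funext c
  by_cases h : p c <;> simp [mg, glue, h, zc]

theorem summable_rho {T : TS σ} {p : T.C → Prop} [DecidablePred p] (h : T.Tri) (hp : T.Low p) :
    Summable (rho p T.u T.K) := rho_cut T p ▸ (h.cut_low hp 0).summable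

namespace Cln

variable {T : TS σ} {T' : TS σ'} {p : C → Prop} [DecidablePred p] {em : ι → C → T.C}
  {em' : ι' → C → T'.C} {u : ι → (C → ℝ) → C → ℝ} {K : ι → Matrix C C ℝ}

/-- the coordinates -/
def eqv (h : Cln T p em u K) (b : ι) : {c // p c} ⊕ ι × {c // ¬ p c} ≃ T.C :=
  Equiv.ofBijective (Sum.elim (fun c => em b c) fun q => em q.1 q.2) ⟨by
    rintro (c | ⟨a, c⟩) (c' | ⟨a', c'⟩) k <;> simp only [Sum.elim_inl, Sum.elim_inr] at k
    · rw [Subtype.ext (h.inj _ k)]
    · exact absurd (h.inj a' ((h.com a' b c c.2).trans k) ▸ c.2) c'.2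
    · exact absurd ((h.inj a (k.trans (h.com b a c' c'.2))).symm ▸ c'.2) c.2
    · obtain rfl := h.dis _ _ _ _ c.2 k
      rw [Subtype.ext (h.inj _ k)], fun x => by
    obtain ⟨a, c, rfl⟩ := h.sur x
    by_cases k : p c
    exacts [⟨.inl ⟨c, k⟩, h.com _ _ _ k⟩, ⟨.inr (a, ⟨c, k⟩), rfl⟩]⟩

/-- the configurations -/
def cf (h : Cln T p em u K) (b : ι) :
    ({c // p c} → ℤ) × (ι → {c // ¬ p c} → ℤ) ≃ (T.C → ℤ) :=
  (((Equiv.refl _).prodCongr (Equiv.curry ι _ ℤ).symm).trans
    (Equiv.sumArrowEquivProdArrow _ _ ℤ).symm).trans ((h.eqv b).arrowCongr (Equiv.refl ℤ))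

theorem cf_em (h : Cln T p em u K) (b : ι) (r : {c // p c} → ℤ) (v : ι → {c // ¬ p c} → ℤ)
    (a : ι) : (fun c => h.cf b (r, v) (em a c)) = mg p r (v a) := by
  funext c
  by_cases k : p c
  · have : em a c = h.eqv b (.inl ⟨c, k⟩) := h.com _ _ _ k
    simp [cf, this, mg, k]
  · have : em a c = h.eqv b (.inr (a, ⟨c, k⟩)) := rfl
    simp [cf, this, mg, k]

theorem wt (h : Cln T p em u K) (hK : T.K.PosDef) (b : ι) (r : {c // p c} → ℤ)
    (v : ι → {c // ¬ p c} → ℤ) :
    T.wt (h.cf b (r, v)) = rho p (u b) (K b) r * ∏ a, kap p (u a) (K a) r (v a) := by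
  have k : ∀ a c, T.u (zc (h.cf b (r, v))) (em a c) = u a (zc (mg p r (v a))) c := fun a c => by
    rw [h.hu, ← h.cf_em b r v a]
    rfl
  have e0 : (T.K.submatrix (fun c => h.eqv b (.inl c)) fun c => h.eqv b (.inl c)) = pp p (K b) := by
    ext c c'
    exact h.hK _ _ _
  have e1 : ∀ a, (T.K.submatrix (fun c => h.eqv b (.inr (a, c))) fun c => h.eqv b (.inr (a, c))) =
      pp (fun c => ¬ p c) (K a) := fun a => by
    ext c c'
    exact h.hK _ _ _
  rw [TS.wt, gs, qf_inv_fac (h.eqv b) hK (fun c q => by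
      change T.K (em b c) (em q.1 q.2) = 0
      rw [h.com b q.1 c c.2, h.hK, h.sep _ _ _ c.2 q.2.2])
    fun q q' n => h.hK0 _ _ _ _ n q.2.2 q'.2.2, mul_add, neg_add, Real.exp_add, mul_sum,
    ← sum_neg_distrib, Real.exp_sum, e0]
  simp only [e1]
  congr 1
  · refine congrArg (gs _) (funext fun c => (k b c).trans (h.low _ _ _ (fun c hc => ?_) _ c.2))
    simp [zc, mg, hc]
  · exact prod_congr rfl fun a _ => congrArg (gs _) (funext fun c => k a c)

theorem rho_eq (h : Cln T p em u K) (a b : ι) : rho p (u a) (K a) = rho p (u b) (K b) := by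
  funext r
  have : pp p (K a) = pp p (K b) := by
    ext c c'
    change K a c c' = K b c c'
    rw [← h.hK, ← h.hK, h.com a b c c.2, h.com a b c' c'.2]
  rw [rho, rho, this]
  refine congrArg (gs _) (funext fun c => ?_)
  have k : ∀ i, T.u (zc (h.cf b (r, 0))) (em i c) = u i (zc (mg p r 0)) c := fun i => by
    rw [h.hu, show mg p r 0 = mg p r ((0 : ι → _) i) from rfl, ← h.cf_em b r 0 i]
    rfl
  rw [← k, ← k, h.com a b c c.2]

variable {G0 : (C → ℤ) → ℝ} {G : ι → (C → ℤ) → ℝ}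

theorem term (h : Cln T p em u K) (hK : T.K.PosDef) (b : ι)
    (d0 : ∀ y y', (∀ c, p c → y c = y' c) → G0 y = G0 y') (r : {c // p c} → ℤ)
    (v : ι → {c // ¬ p c} → ℤ) :
    T.wt (h.cf b (r, v)) * (G0 (fun c => h.cf b (r, v) (em b c)) *
        ∏ a, G a fun c => h.cf b (r, v) (em a c)) =
      rho p (u b) (K b) r * G0 (mg p r 0) *
        ∏ a, kap p (u a) (K a) r (v a) * G a (mg p r (v a)) := by
  simp only [h.wt hK, h.cf_em, prod_mul_distrib]
  rw [d0 (mg p r (v b)) (mg p r 0) fun c hc => by simp [mg, hc]]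
  ring

theorem bb (b0 : Bb G0) (b1 : ∀ a, Bb (G a)) (b : ι) :
    Bb fun y : T.C → ℤ => G0 (fun c => y (em b c)) * ∏ a, G a fun c => y (em a c) :=
  (b0.comp _).mul (Bb.prod _ fun a _ => (b1 a).comp _)

theorem summable_kap (h : Cln T p em u K) (hT : T.Tri) (a : ι) (r : {c // p c} → ℤ) :
    Summable (kap p (u a) (K a) r) := by
  classical
  have := (hT.summable.comp_injective ((h.cf a).injective.comp
    (f := fun v : {c // ¬ p c} → ℤ => (r, update (0 : ι → _) a v))
    fun v v' e => update_injective _ _ (Prod.ext_iff.1 e).2))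
  have k : 0 < rho p (u a) (K a) r * ∏ i ∈ univ.erase a, kap p (u i) (K i) r 0 :=
    mul_pos (rho_pos ..) (prod_pos fun _ _ => kap_pos ..)
  refine (summable_mul_left_iff k.ne').1 (this.congr fun v => ?_)
  simp only [Function.comp, h.wt hT.pd]
  rw [← prod_erase_mul _ _ (mem_univ a), update_self, mul_assoc]
  congr 2
  exact prod_congr rfl fun i hi => by rw [update_of_ne (ne_of_mem_erase hi)]; rfl

/-- Fubini: the clones are independent given the common part (hand-over when `ι` = points) -/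
theorem fub (h : Cln T p em u K) (hT : T.Tri) (b : ι)
    (d0 : ∀ y y', (∀ c, p c → y c = y' c) → G0 y = G0 y') (n0 : ∀ y, 0 ≤ G0 y)
    (n1 : ∀ a y, 0 ≤ G a y) (b0 : Bb G0) (b1 : ∀ a, Bb (G a)) :
    HasSum (fun r => rho p (u b) (K b) r * G0 (mg p r 0) *
        ∏ a, ∑' v, kap p (u a) (K a) r v * G a (mg p r v))
      (T.S fun y => G0 (fun c => y (em b c)) * ∏ a, G a fun c => y (em a c)) :=
  Ho.fub (h.cf b) (φ := fun a r v => kap p (u a) (K a) r v * G a (mg p r v))
    (h.term hT.pd b d0) (hT.sm (bb b0 b1 b)) (fun _ => mul_nonneg (rho_pos ..).le (n0 _))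
    (fun _ _ _ => mul_nonneg (kap_pos ..).le (n1 _ _)) fun a r => by
      obtain ⟨B, hB⟩ := b1 a
      exact ((h.summable_kap hT a r).mul_right B).of_nonneg_of_le
        (fun _ => mul_nonneg (kap_pos ..).le (n1 _ _)) fun v =>
          mul_le_mul_of_nonneg_left ((le_abs_self _).trans (hB _)) (kap_pos ..).le

/-- Gowers–Hölder pick in one block, with normalisers `z` -/
theorem gh (h : Cln T p em u K) (hT : T.Tri) (b : ι) {S : ι → TS σ'} {em' : ∀ a, ι → C → (S a).C}
    (h' : ∀ a, Cln (S a) p (em' a) (fun _ => u a) fun _ => K a) (hS : ∀ a, (S a).Tri)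
    (d0 : ∀ y y', (∀ c, p c → y c = y' c) → G0 y = G0 y') (n0 : ∀ y, 0 ≤ G0 y)
    (n1 : ∀ a y, 0 ≤ G a y) (b0 : Bb G0) (b1 : ∀ a, Bb (G a)) {z : ι → ℝ} (hz : ∀ a, 0 < z a) :
    ∃ a, (T.S fun y => G0 (fun c => y (em b c)) * ∏ i, G i fun c => y (em i c)) / ∏ i, z i ≤
      ((S a).S fun y => G0 (fun c => y (em' a b c)) * ∏ i, G a fun c => y (em' a i c)) /
        z a ^ Fintype.card ι := by
  have : Nonempty ι := ⟨b⟩
  obtain ⟨-, a, ha⟩ := Ho.gh (Equiv.refl _) (ρ := fun r => rho p (u b) (K b) r * G0 (mg p r 0))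
    (φ := fun a r v => kap p (u a) (K a) r v * G a (mg p r v) / z a)
    (G := fun a x => (S a).wt ((h' a).cf b x) * (G0 (fun c => (h' a).cf b x (em' a b c)) *
      ∏ i, G a fun c => (h' a).cf b x (em' a i c)) / z a ^ Fintype.card ι)
    (F := fun x => T.wt (h.cf b x) * (G0 (fun c => h.cf b x (em b c)) *
      ∏ i, G i fun c => h.cf b x (em i c)) / ∏ i, z i)
    (fun _ => mul_nonneg (rho_pos ..).le (n0 _))
    (fun a _ _ => div_nonneg (mul_nonneg (kap_pos ..).le (n1 _ _)) (hz a).le)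
    (fun r v => by rw [Equiv.refl_apply, h.term hT.pd b d0, prod_div_distrib, mul_div_assoc])
    (fun a r v => by
      rw [Equiv.refl_apply, (h' a).term (G := fun _ => G a) (hS a).pd b d0, prod_div_distrib,
        mul_div_assoc, h.rho_eq a b, prod_const, card_univ])
    fun a => (((h' a).cf b).summable_iff.2
      ((hS a).sm (bb (G := fun _ => G a) b0 (fun _ => b1 a) b))).div_const _
  refine ⟨a, ?_⟩
  rwa [tsum_div_const, tsum_div_const, (h.cf b).tsum_eq fun y => T.wt y *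
      (G0 (fun c => y (em b c)) * ∏ i, G i fun c => y (em i c)),
    ((h' a).cf b).tsum_eq fun y => (S a).wt y *
      (G0 (fun c => y (em' a b c)) * ∏ i, G a fun c => y (em' a i c))] at ha

/-- regridding one block -/
theorem regrid {u : (C → ℝ) → C → ℝ} {K : Matrix C C ℝ} (h : Cln T p em (fun _ => u) fun _ => K)
    (h' : Cln T' p em' (fun _ => u) fun _ => K) (hT : T.Tri) (hT' : T'.Tri) (b : ι) (b' : ι')
    (hc : Fintype.card ι ≤ Fintype.card ι') (sρ : Summable (rho p u K)) {G : (C → ℤ) → ℝ}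
    (d0 : ∀ y y', (∀ c, p c → y c = y' c) → G0 y = G0 y') (n0 : ∀ y, 0 ≤ G0 y)
    (n1 : ∀ y, 0 ≤ G y) (b0 : Bb G0) (b1 : Bb G) {L : ℝ} (hL : 0 ≤ L)
    (H : L ^ Fintype.card ι * ∑' r, rho p u K r * G0 (mg p r 0) ≤
      T.S fun y => G0 (fun c => y (em b c)) * ∏ a, G fun c => y (em a c)) :
    L ^ Fintype.card ι' * ∑' r, rho p u K r * G0 (mg p r 0) ≤
      T'.S fun y => G0 (fun c => y (em' b' c)) * ∏ a, G fun c => y (em' a c) := by
  have : Nonempty ι := ⟨b⟩
  obtain ⟨B, hB⟩ := id b0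
  exact Ho.regrid hc (h.cf b) (h'.cf b') (φ := fun r v => kap p u K r v * G (mg p r v))
    (fun _ => mul_nonneg (rho_pos ..).le (n0 _)) (fun _ _ => mul_nonneg (kap_pos ..).le (n1 _))
    (h.term (G := fun _ => G) hT.pd b d0) (h'.term (G := fun _ => G) hT'.pd b' d0)
    ((sρ.mul_right B).of_nonneg_of_le (fun _ => mul_nonneg (rho_pos ..).le (n0 _)) fun v =>
      mul_le_mul_of_nonneg_left ((le_abs_self _).trans (hB _)) (rho_pos ..).le)
    (hT.sm (bb (G := fun _ => G) b0 (fun _ => b1) b))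
    (hT'.sm (bb (G := fun _ => G) b0 (fun _ => b1) b')) hL H

end Cln

end Crest.Agent.N49.Ho

end
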