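import Crest.Agent.N49.Ho.Shc
import Crest.Agent.N49.Br.Defs

/-!
# Row 49 (helper1): the top-word rings are made of clones; one twist per type; regridding
-/

set_option autoImplicit false
set_option linter.unusedSectionVars false

open Matrix MvPolynomial Finset Function

noncomputable section

namespace Crest.Agent.N49.Ho

open Po Tw Br

variable {ι : Type} [Fintype ι] [LinearOrder ι] {s : ℕ} {D D₁ : Finset (Pt ι)}
  {V : ℕ → Pt ι → ℝ}

/-- replace the clone of the block `i` by `a` -/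
def rep (i : ι) (a : ℕ) (w : Pt ι) : Pt ι := update w i ((w i).map fun _ => a)

theorem rep_self (i : ι) (a : ℕ) (w : Pt ι) : rep i a w i = (w i).map fun _ => a := update_self ..
theorem rep_ne {i j : ι} (h : j ≠ i) (a : ℕ) (w : Pt ι) : rep i a w j = w j := update_of_ne h ..

theorem bl_rep (i : ι) (a : ℕ) (w : Pt ι) : bl (rep i a w) = bl w := by
  ext j
  by_cases h : j = i
  · subst h; simp [bl, rep_self]
  · simp [bl, rep_ne h]

theorem rep_rep (i : ι) (a b : ℕ) (w : Pt ι) : rep i a (rep i b w) = rep i a w := by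
  funext j
  by_cases h : j = i
  · subst h; rw [rep_self, rep_self, rep_self]; cases w j <;> rfl
  · simp [rep_ne h]

theorem rep_eq {i : ι} {a : ℕ} {w : Pt ι} (h : w i = none ∨ w i = some a) : rep i a w = w := by
  rw [rep, update_eq_self_iff]
  rcases h with h | h <;> rw [h] <;> rfl

theorem le_rep {w w' : Pt ι} (h : Le w' w) (i : ι) (a : ℕ) : Le (rep i a w') (rep i a w) := by
  intro j k
  by_cases e : j = i
  · subst e
    rw [rep_self] at k
    rw [rep_self, rep_self, h j fun e => k (by rw [e]; rfl)]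
  · rw [rep_ne e] at k
    rw [rep_ne e, rep_ne e, h j k]

theorem le_val {w w' : Pt ι} {i : ι} {a : ℕ} (h : Le w' (rep i a w)) :
    w' i = none ∨ w' i = some a := by
  by_cases k : w' i = none
  · exact .inl k
  · have := h i k
    rw [rep_self] at this
    cases e : w i <;> simp_all

/-- words with the same blocks and level -/
def mw (w : Wd s D) {w' : Pt ι} (h : w' ∈ D₁) (k : bl w' = bl w.tr) : Wd s D₁ :=
  ⟨(w.1.1, ⟨w', h⟩), k ▸ w.2⟩

theorem wd_ext {w w' : Wd s D} (h : w.1.1 = w'.1.1) (k : w.tr = w'.tr) : w = w' :=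
  Subtype.ext (Prod.ext h (Subtype.ext k))

/-- `D` consists of `q` clones of `D₁` in the block `i` -/
structure Dcl (D D₁ : Finset (Pt ι)) (i : ι) (q : ℕ) : Prop where
  pos : 0 < q
  rp : ∀ w ∈ D, ∀ a < q, rep i a w ∈ D
  lt : ∀ w ∈ D, ∀ a, w i = some a → a < q
  one : ∀ w, w ∈ D₁ ↔ w ∈ D ∧ (w i = none ∨ w i = some 0)

namespace Dcl

variable {i : ι} {q : ℕ}

/-- the clone `a` -/
def em (h : Dcl D D₁ i q) (a : Fin q) (w : Wd s D₁) : Wd s D :=
  mw w (h.rp _ ((h.one _).1 w.1.2.2).1 a a.2) (bl_rep i a _)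
/-- replace the clone by `a` -/
def rt (h : Dcl D D₁ i q) (a : Fin q) (w : Wd s D) : Wd s D :=
  mw w (h.rp _ w.1.2.2 a a.2) (bl_rep i a _)
/-- forget the clone -/
def pr (h : Dcl D D₁ i q) (w : Wd s D) : Wd s D₁ :=
  mw w ((h.one _).2 ⟨h.rp _ w.1.2.2 0 h.pos, le_val (w := w.tr) fun _ _ => rfl⟩) (bl_rep i 0 _)

theorem rt_em (h : Dcl D D₁ i q) (a a' : Fin q) (w : Wd s D₁) : h.rt a (h.em a' w) = h.em a w :=
  wd_ext rfl (rep_rep ..)

theorem rep0 (h : Dcl D D₁ i q) (w : Wd s D₁) : rep i 0 w.tr = w.tr :=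
  rep_eq ((h.one _).1 w.1.2.2).2

theorem em_pr (h : Dcl D D₁ i q) {a : Fin q} {x : Wd s D} (k : x.tr i = none ∨ x.tr i = some a) :
    h.em a (h.pr x) = x := wd_ext rfl ((rep_rep ..).trans (rep_eq k))

theorem inj (h : Dcl D D₁ i q) (a : Fin q) : Injective (h.em (s := s) a) := fun w w' e =>
  wd_ext (congrArg (·.1.1) e) (by
    rw [← h.rep0 w, ← h.rep0 w', ← rep_rep i 0 a, ← rep_rep i 0 a w'.tr]
    exact congrArg (fun x : Wd s D => rep i 0 x.tr) e)

theorem le_em (h : Dcl D D₁ i q) (a : Fin q) (w : Wd s D₁) (ω : Pt ι) :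
    Le (h.em a w).tr (rep i a ω) ↔ Le w.tr (rep i 0 ω) := by
  change Le (rep i a w.tr) _ ↔ _
  refine ⟨fun k => ?_, fun k => by simpa only [rep_rep] using le_rep k i a⟩
  simpa only [rep_rep, h.rep0 w] using le_rep k i 0

theorem cd (h : Dcl D D₁ i q) (V : ℕ → Pt ι → ℝ) (a : Fin q) (w : Wd s D₁) :
    (tw s D V).cd (h.em a w) = (tw s D₁ V).cd w := rfl

theorem shcl (h : Dcl D D₁ i q) (hV : ∀ j a w, V j (rep i a w) = V j w) :
    ShCl (tw s D V) (tw s D₁ V) (fun w => w.tr i = none) h.em where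
  inj := h.inj
  com a a' w k := wd_ext rfl ((rep_eq (.inl k)).trans (rep_eq (.inl k)).symm)
  dis a a' w w' k e := by
    have : rep i a w.tr i = rep i a' w'.tr i := congrArg (fun x : Wd s D => x.tr i) e
    rw [rep_self, rep_self] at this
    cases e1 : w.tr i <;> cases e2 : w'.tr i <;> simp_all [Fin.ext_iff]
  sur x := by
    cases e : x.tr i with
    | none => exact ⟨⟨0, h.pos⟩, _, h.em_pr (.inl e)⟩
    | some a => exact ⟨⟨a, h.lt _ x.1.2.2 a e⟩, _, h.em_pr (.inr e)⟩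
  cd _ _ := rfl
  r a w m := by
    refine if_congr (and_congr ?_ (and_congr ?_ ?_)) rfl rfl
    · rw [TS.weight_map]; rfl
    · rw [Finsupp.mapDomain_support_of_injective (h.inj a), forall_mem_image]
      refine forall₂_congr fun w' _ => (h.le_em a w' w.tr).trans ?_
      rw [h.rep0]
    · rw [Finsupp.mapDomain_support_of_injective (h.inj a), image_biUnion]
      simp only [em, mw, Wd.tr, bl_rep]
  loc a w m k x hx := ⟨_, h.em_pr (le_val ((of_not_not (mt (if_neg · : _ → _ = (0 : ℤ)) k)).2.1 x hx))⟩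
  eps a w := if_congr (and_congr Iff.rfl (by rw [show bl (h.em a w).tr = bl w.tr from bl_rep ..])) rfl rfl
  idl w m k r w' hw := by
    by_contra n
    exact n (((of_not_not (mt (if_neg · : _ → _ = (0 : ℤ)) r)).2.1 w' hw i n).trans k)
  hK a w w' := by
    simp only [diagonal_apply, (h.inj a).eq_iff]
    exact if_congr Iff.rfl (hV _ _ _) rfl
  hK0 a a' w w' n k _ := diagonal_apply_ne _ fun e => n (by
    have : rep i a w.tr i = rep i a' w'.tr i := congrArg (fun x : Wd s D => x.tr i) e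
    rw [rep_self, rep_self] at this
    cases e1 : w.tr i <;> cases e2 : w'.tr i <;> simp_all [Fin.ext_iff])
  sep w w' k k' := diagonal_apply_ne _ fun e => k' (e ▸ k)

theorem pw_em {T : TS Unit} (h : Dcl D D₁ i q) (a : Fin q) (ω : Pt ι)
    (y : T.Cw (tw s D V) → ℤ) : T.pw _ (chi V (rep i a ω)) y =
      T.pw (tw s D₁ V) (chi V (rep i 0 ω)) fun c => y (fc T (h.cd V a) c) := by
  refine (pw_fc (S := tw s D V) (S₁ := tw s D₁ V) (f := h.em a) (h.cd V a) (h.inj a)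
    (fun x k => if_neg fun l => k _ (h.em_pr (le_val l))) y).trans ?_
  congr 1
  exact funext fun w => if_congr (h.le_em a w ω) rfl rfl

end Dcl

theorem mem_grid {q : ι → ℕ} {w : Pt ι} : w ∈ grid q ↔ ∀ i a, w i = some a → a < q i := by
  simp [grid, mem_insertNone, Option.mem_def]

theorem mem_pts {q : ι → ℕ} {w : Pt ι} : w ∈ pts q ↔ ∀ i, ∃ a < q i, some a = w i := by
  simp [pts]

variable {q q' q₁ : ι → ℕ} {i : ι}

theorem dcl_grid (h : 0 < q i) (h1 : q₁ i = 1) (h2 : ∀ j ≠ i, q₁ j = q j) :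
    Dcl (grid q) (grid q₁) i (q i) where
  pos := h
  rp w hw a ha := mem_grid.2 fun j b e => by
    by_cases k : j = i
    · subst k
      rw [rep_self] at e
      cases e1 : w j <;> simp_all
    · exact mem_grid.1 hw j b (rep_ne k a w ▸ e)
  lt w hw := mem_grid.1 hw i
  one w := by
    simp only [mem_grid]
    refine ⟨fun k => ⟨fun j b e => ?_, ?_⟩, fun k j b e => ?_⟩
    · have := k j b e
      by_cases k : j = i
      · subst k; omega
      · rwa [h2 j k] at this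
    · cases e : w i with
      | none => exact .inl rfl
      | some b => simpa [h1] using k i b e
    · by_cases l : j = i
      · subst l; have := k.2; simp_all
      · rw [h2 j l]; exact k.1 j b e

theorem pts_one (h1 : q₁ i = 1) {ω : Pt ι} (h : ω ∈ pts q₁) : ω i = some 0 := by
  obtain ⟨a, h, e⟩ := mem_pts.1 h i
  rw [← e, show a = 0 by omega]

theorem prod_pts {M : Type*} [CommMonoid M] (h1 : q₁ i = 1) (h2 : ∀ j ≠ i, q₁ j = q j)
    (f : Pt ι → M) : ∏ ω ∈ pts q, f ω = ∏ a : Fin (q i), ∏ ω ∈ pts q₁, f (rep i a ω) := by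
  rw [← prod_product' univ (pts q₁) fun (a : Fin (q i)) ω => f (rep i a ω)]
  refine (prod_bij (fun x _ => rep i x.1 x.2) (fun x hx => mem_pts.2 fun j => ?_)
    (fun x hx x' hx' e => ?_) (fun ω h => ?_) fun _ _ => rfl).symm
  · by_cases k : j = i
    · subst k; exact ⟨x.1, x.1.2, by rw [rep_self, pts_one h1 (mem_product.1 hx).2]; rfl⟩
    · simpa only [rep_ne k, h2 j k] using mem_pts.1 (mem_product.1 hx).2 j
  · have z := pts_one h1 (mem_product.1 hx).2
    have z' := pts_one h1 (mem_product.1 hx').2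
    have := congrFun e i
    rw [rep_self, rep_self, z, z'] at this
    refine Prod.ext (Fin.ext (by simpa using this)) ?_
    rw [← rep_eq (.inr z), ← rep_eq (.inr z'), ← rep_rep i 0 x.1, e, rep_rep]
  · obtain ⟨a, ha, e⟩ := mem_pts.1 h i
    refine ⟨(⟨a, ha⟩, rep i 0 ω), mem_product.2 ⟨mem_univ _, mem_pts.2 fun j => ?_⟩,
      (rep_rep ..).trans (rep_eq (.inr e.symm))⟩
    by_cases k : j = i
    · subst k; exact ⟨0, by omega, by simp only [rep_self, ← e]; rfl⟩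
    · simpa only [rep_ne k, h2 j k] using mem_pts.1 h j

theorem bl_rs' {ω : Pt ι} (h : ∀ i, ω i ≠ none) (F : Finset ι) : bl (rs ω F) = F := by
  ext i
  by_cases k : i ∈ F <;> simp [bl, rs, k, h]

theorem pts_ne {ω : Pt ι} (h : ω ∈ pts q) (i : ι) : ω i ≠ none := by
  obtain ⟨a, -, e⟩ := mem_pts.1 h i
  simp [← e]

/-- the word of the vertex `ω` with the same type -/
def vx {ω : Pt ι} (h : ω ∈ pts q) (w : Wd s D) : Wd s (grid q) :=
  mw w (w' := rs ω (bl w.tr)) (mem_grid.2 fun i a e => by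
    obtain ⟨b, hb, e'⟩ := mem_pts.1 h i
    by_cases k : i ∈ bl w.tr <;> simp only [rs, k, if_true, if_false, ← e'] at e
    exacts [Option.some.inj e ▸ hb, absurd e (by simp)])
    (bl_rs' (pts_ne h) _)

theorem zero_mem (h : ∀ i, 0 < q i) : (fun _ => some 0) ∈ pts q :=
  mem_pts.2 fun i => ⟨0, h i, rfl⟩

/-- the type of a word -/
def ty0 (w : Wd s D) : Wd s (grid fun _ : ι => 1) := vx (zero_mem fun _ => one_pos) w

theorem vx_congr {ω : Pt ι} (h : ω ∈ pts q) {w : Wd s D} {w' : Wd s D₁} (e : w.1.1 = w'.1.1)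
    (k : bl w.tr = bl w'.tr) : vx h w = vx h w' := wd_ext e (congrArg (rs ω) k)

theorem vx_vx {ω ω' : Pt ι} (h : ω ∈ pts q) (h' : ω' ∈ pts q') (w : Wd s D) :
    vx h (vx h' w) = vx h w := vx_congr h rfl (bl_rs' (pts_ne h') _)

variable {T : TS Unit} {st : T.C → ℕ}

variable (D) in
/-- **uniform twists**: induced by a twist on the grid with one point -/
def tu (Ψ : T.Twd (tw s (grid fun _ : ι => 1) V)) : T.Twd (tw s D V) :=
  T.tp _ (tw s D V) (pj ty0) Ψ

theorem tp_tu {f : Wd s D₁ → Wd s D} (e : ∀ w, (f w).1.1 = w.1.1) (k : ∀ w, bl (f w).tr = bl w.tr)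
    (Ψ : T.Twd (tw s (grid fun _ : ι => 1) V)) :
    T.tp (tw s D V) (tw s D₁ V) (pj f) (tu D Ψ) = tu D₁ Ψ :=
  tp_pj' (S := tw s (grid fun _ : ι => 1) V) (S' := tw s D V) (S₁ := tw s D₁ V) (f := f)
    (g := ty0) (k := ty0) (fun w => vx_congr _ (e w) (k w)) Ψ

theorem tp_vx {ω : Pt ι} (h : ω ∈ pts q) (Ψ : T.Twd (tw s (grid q) V)) :
    T.tp _ (tw s D V) (pj (vx h)) Ψ = tu D (T.tp _ (tw s (grid fun _ : ι => 1) V) (pj (vx h)) Ψ) :=
  (tp_pj' (S := tw s (grid q) V) (S' := tw s (grid fun _ : ι => 1) V) (S₁ := tw s D V) (f := ty0)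
    (g := vx h) (k := vx h) (fun w => vx_vx _ _ w) Ψ).symm

theorem foldl_rep (a : ι → ℕ) (l : List ι) (w : Pt ι) (j : ι) :
    l.foldl (fun w b => rep b (a b) w) w j = if j ∈ l then (w j).map fun _ => a j else w j := by
  induction l generalizing w with
  | nil => simp
  | cons b l ih =>
    rw [List.foldl_cons, ih]
    by_cases k : j = b
    · subst k
      rw [rep_self]
      cases w j <;> simp
    · simp [rep_ne k, k]

/-- **UNIF**: the twist and the vertex function of one vertex -/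
theorem unif_grid (hq : ∀ i, 0 < q i) (hV : ∀ j i a w, V j (rep i a w) = V j w)
    {P : T.Twd (tw s (grid q) V) → Prop} (tri : ∀ Ψ, P Ψ → (T.lw _ st Ψ).Tri)
    (adm : ∀ f Ψ, (tw s (grid q) V).Hm (tw s (grid q) V) (pj f) → P Ψ → P (T.tp _ _ (pj f) Ψ))
    {Ψ : T.Twd (tw s (grid q) V)} (hΨ : P Ψ) {g : Pt ι → (T.C → ℤ) → ℝ} (n1 : ∀ ω y, 0 ≤ g ω y)
    (b1 : ∀ ω, Bb (g ω)) : ∃ (ω₀ : Pt ι) (h : ω₀ ∈ pts q), P (T.tp _ _ (pj (vx h)) Ψ) ∧
      ((T.tw _ Ψ).S fun y => ∏ ω ∈ pts q, g ω (T.pw _ (chi V ω) y)) ≤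
        (T.tw _ (T.tp _ (tw s (grid q) V) (pj (vx h)) Ψ)).S fun y =>
          ∏ ω ∈ pts q, g ω₀ (T.pw _ (chi V ω) y) := by
  have h1 : ∀ i, update q i 1 i = 1 := fun i => update_self ..
  have h2 : ∀ i, ∀ j ≠ i, update q i 1 j = q j := fun i j k => update_of_ne k ..
  have d := fun i => dcl_grid (hq i) (h1 i) (h2 i)
  have : ∀ i, Nonempty (Fin (q i)) := fun i => ⟨⟨0, hq i⟩⟩
  have hm := fun i a => ((d i).shcl (s := s) fun j => hV j i).hm_rt ((d i).rt_em a)
  obtain ⟨a, ha, pa⟩ := gh_all (D := T.Twd (tw s (grid q) V) × (Pt ι → (T.C → ℤ) → ℝ))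
    (Λ := fun d => (T.tw _ d.1).S fun y => ∏ ω ∈ pts q, d.2 ω (T.pw _ (chi V ω) y))
    (P := fun d => P d.1 ∧ (∀ w v, 0 ≤ d.2 w v) ∧ ∀ w, Bb (d.2 w))
    (fun i (a : Fin (q i)) x => (T.tp _ _ (pj ((d i).rt a)) x.1, fun ω => x.2 (rep i a ω)))
    (fun i a _ k => ⟨adm _ _ (hm i a) k.1, fun _ => k.2.1 _, fun _ => k.2.2 _⟩)
    (fun i x k => by
      obtain ⟨a, ha⟩ := ((d i).shcl fun j => hV j i).gh (d i).rt_em (tri _ k.1)
        (fun a => tri _ (adm _ _ (hm i a) k.1)) ⟨0, hq i⟩ (G0 := fun _ => 1)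
        (G := fun a y => ∏ ω ∈ pts (update q i 1), x.2 (rep i a ω) (T.pw _ (chi V (rep i 0 ω)) y))
        (fun _ _ _ => rfl) (fun _ => zero_le_one) (fun _ _ => prod_nonneg fun _ _ => k.2.1 _ _)
        (Bb.const _) fun a => Bb.prod _ fun w _ => (k.2.2 _).comp _
      refine ⟨a, ?_⟩
      simp only [prod_pts (h1 i) (h2 i), (d i).pw_em, rep_rep]
      simpa only [one_mul] using ha)
    univ.toList (nodup_toList _) (Ψ, g) ⟨hΨ, n1, b1⟩
  have k : ∀ l : List ι, l.foldr (fun i (x : T.Twd (tw s (grid q) V) × (Pt ι → (T.C → ℤ) → ℝ)) =>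
      (T.tp _ (tw s (grid q) V) (pj ((d i).rt (a i))) x.1, fun ω => x.2 (rep i (a i) ω))) (Ψ, g) =
      (T.tp _ (tw s (grid q) V) (pj fun w => l.foldl (fun w b => (d b).rt (a b) w) w) Ψ,
        fun w => g (l.foldl (fun w b => rep b (a b) w) w)) := fun l => by
    induction l with
    | nil => exact Prod.ext (tp_id Ψ).symm rfl
    | cons b l ih => rw [List.foldr_cons, ih]; exact Prod.ext (tp_pj ..) rfl
  have m : (fun i => some (a i : ℕ)) ∈ pts q := mem_pts.2 fun i => ⟨a i, (a i).2, rfl⟩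
  have k1 : ∀ (l : List ι) (w : Wd s (grid q)),
      (l.foldl (fun w b => (d b).rt (a b) w) w).1.1 = w.1.1 ∧
      (l.foldl (fun w b => (d b).rt (a b) w) w).tr = l.foldl (fun w b => rep b (a b) w) w.tr :=
    fun l => by
      induction l with
      | nil => exact fun _ => ⟨rfl, rfl⟩
      | cons b l ih => exact fun w => ih _
  have k2 : (fun w => univ.toList.foldl (fun w b => (d b).rt (a b) w) w) = vx (s := s) m :=
    funext fun w => wd_ext (k1 _ w).1 ((k1 _ w).2.trans (funext fun j => by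
      rw [foldl_rep (fun b => a b)]
      change _ = rs (fun i => some (a i : ℕ)) (bl w.tr) j
      cases e : w.tr j <;> simp [rs, bl, e]))
  rw [k, k2] at ha pa
  refine ⟨_, m, pa.1, ha.trans_eq ?_⟩
  refine congrArg _ (funext fun y => prod_congr rfl fun ω hω => ?_)
  refine congrArg (g · _) (funext fun j => ?_)
  rw [foldl_rep (fun b => a b)]
  obtain ⟨b, -, e⟩ := mem_pts.1 hω j
  simp [← e]

/-- **REGRID** the block `i` (uniform twist, background weight `G0`) -/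
theorem regrid_grid (hq : 0 < q i) (hc : q i ≤ q' i) (h1 : q₁ i = 1) (h2 : ∀ j ≠ i, q₁ j = q j)
    (h3 : ∀ j ≠ i, q₁ j = q' j) (hV : ∀ j a w, V j (rep i a w) = V j w)
    {Ψ : T.Twd (tw s (grid fun _ : ι => 1) V)} (hT : (T.lw _ st (tu (grid q) Ψ)).Tri)
    (hT' : (T.lw _ st (tu (grid q') Ψ)).Tri)
    (hs : Summable ((T.tw _ (tu (grid q₁) Ψ)).cut
      (fun c : T.Cw (tw s (grid q₁) V) => c.1.2.tr i = none) 0).wt)
    {G0 : (T.Cw (tw s (grid q₁) V) → ℤ) → ℝ} {g : Pt ι → (T.C → ℤ) → ℝ}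
    (d0 : ∀ y y', (∀ c : T.Cw (tw s (grid q₁) V), c.1.2.tr i = none → y c = y' c) → G0 y = G0 y')
    (n0 : ∀ y, 0 ≤ G0 y) (n1 : ∀ ω y, 0 ≤ g ω y) (b0 : Bb G0) (b1 : ∀ ω, Bb (g ω)) {L : ℝ}
    (hL : 0 ≤ L) (H : L ^ q i * (((T.tw _ (tu (grid q₁) Ψ)).cut
        (fun c : T.Cw (tw s (grid q₁) V) => c.1.2.tr i = none) 0).S fun r => G0 (glue _ r 0)) ≤
      (T.tw _ (tu (grid q) Ψ)).S fun y =>
        G0 (fun c => y (fc T ((dcl_grid hq h1 h2).cd V ⟨0, hq⟩) c)) *
          ∏ ω ∈ pts q, g (rep i 0 ω) (T.pw _ (chi V ω) y)) :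
    L ^ q' i * (((T.tw _ (tu (grid q₁) Ψ)).cut
        (fun c : T.Cw (tw s (grid q₁) V) => c.1.2.tr i = none) 0).S fun r => G0 (glue _ r 0)) ≤
      (T.tw _ (tu (grid q') Ψ)).S fun y =>
        G0 (fun c => y (fc T ((dcl_grid (hq.trans_le hc) h1 h3).cd V ⟨0, hq.trans_le hc⟩) c)) *
          ∏ ω ∈ pts q', g (rep i 0 ω) (T.pw _ (chi V ω) y) := by
  have d := dcl_grid hq h1 h2
  have d' := dcl_grid (hq.trans_le hc) h1 h3
  have := (d.shcl hV).regrid (d'.shcl hV) (Ψ := tu (grid q) Ψ) (Ψ' := tu (grid q') Ψ)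
    (Ψ₁ := tu (grid q₁) Ψ) (fun a => tp_tu (f := d.em a) (fun _ => rfl) (fun w => bl_rep i a w.tr) Ψ)
    (fun a => tp_tu (f := d'.em a) (fun _ => rfl) (fun w => bl_rep i a w.tr) Ψ) hT hT' hs ⟨0, hq⟩ ⟨0, hq.trans_le hc⟩
    (by simpa using hc)
    (G := fun y => ∏ ω ∈ pts q₁, g (rep i 0 ω) (T.pw _ (chi V (rep i 0 ω)) y)) d0 n0
    (fun _ => prod_nonneg fun _ _ => n1 _ _) b0 (Bb.prod _ fun w _ => (b1 _).comp _) hL
  simp only [prod_pts h1 h2, d.pw_em, rep_rep] at H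
  simp only [prod_pts h1 h3, d'.pw_em, rep_rep]
  simp only [Fintype.card_fin] at this
  exact this H

end Crest.Agent.N49.Ho

end
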