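import Mathlib

/-!
# Row 49 (helper1): clones in `ℝ≥0∞` : Fubini, Gowers–Hölder pick, regridding
-/

set_option autoImplicit false

open Finset
open scoped ENNReal NNReal

noncomputable section

namespace Crest.Agent.N49.Ho

theorem tsum_pi {V : Type*} (ι : Type) [Fintype ι] :
    ∀ f : ι → V → ℝ≥0∞, ∑' v : ι → V, ∏ i, f i (v i) = ∏ i, ∑' x, f i x := by
  refine Fintype.induction_empty_option
    (P := fun ι _ => ∀ f : ι → V → ℝ≥0∞, ∑' v : ι → V, ∏ i, f i (v i) = ∏ i, ∑' x, f i x)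
    ?_ ?_ ?_ ι
  · intro α β _ e h f
    let _ := Fintype.ofEquiv β e.symm
    rw [← (e.arrowCongr (Equiv.refl V)).tsum_eq, ← e.prod_comp, ← h fun a => f (e a)]
    refine tsum_congr fun v => ?_
    rw [← e.prod_comp]
    simp
  · intro f
    simp
  · intro α _ h f
    rw [← (Equiv.piOptionEquivProd (β := fun _ : Option α => V)).symm.tsum_eq, ENNReal.tsum_prod',
      Fintype.prod_option, ← h fun a => f (some a), ← ENNReal.tsum_mul_right]
    refine tsum_congr fun x => ?_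
    rw [← ENNReal.tsum_mul_left]
    refine tsum_congr fun v => ?_
    rw [Fintype.prod_option]
    simp [Equiv.piOptionEquivProd]

theorem amgm_real {ι : Type*} [Fintype ι] [Nonempty ι] {x : ι → ℝ} (h : ∀ i, 0 ≤ x i) :
    Fintype.card ι * ∏ i, x i ≤ ∑ i, x i ^ Fintype.card ι := by
  have n0 : Fintype.card ι ≠ 0 := Fintype.card_ne_zero
  have n1 : (0 : ℝ) < Fintype.card ι := by positivity
  have := Real.geom_mean_le_arith_mean_weighted univ (fun _ => (Fintype.card ι : ℝ)⁻¹)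
    (fun i => x i ^ Fintype.card ι) (fun _ _ => by positivity) (by simp) fun i _ => by
      have := h i; positivity
  simp only [Real.pow_rpow_inv_natCast (h _) n0, ← mul_sum] at this
  rwa [← le_inv_mul_iff₀ n1]

theorem amgm {ι : Type*} [Fintype ι] [Nonempty ι] (x : ι → ℝ≥0∞) :
    Fintype.card ι * ∏ i, x i ≤ ∑ i, x i ^ Fintype.card ι := by
  by_cases h : ∃ i, x i = ⊤
  · obtain ⟨i, hi⟩ := h
    refine le_trans le_top (le_trans ?_ (single_le_sum (fun _ _ => zero_le) (mem_univ i)))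
    rw [hi, ENNReal.top_pow Fintype.card_ne_zero]
  · push Not at h
    lift x to ι → ℝ≥0 using h
    have := amgm_real (x := fun i => (x i : ℝ)) fun i => (x i).2
    beta_reduce
    exact_mod_cast this

variable {R V : Type*} {ι ι' : Type} [Fintype ι] [Fintype ι']

/-- the sum over a common part and independent clones -/
def cs (ρ : R → ℝ≥0∞) (φ : ι → R → V → ℝ≥0∞) : ℝ≥0∞ :=
  ∑' p : R × (ι → V), ρ p.1 * ∏ i, φ i p.1 (p.2 i)

theorem cs_eq (ρ : R → ℝ≥0∞) (φ : ι → R → V → ℝ≥0∞) :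
    cs ρ φ = ∑' r, ρ r * ∏ i, ∑' v, φ i r v := by
  rw [cs, ENNReal.tsum_prod']
  exact tsum_congr fun r => by
    rw [← tsum_pi ι fun i => φ i r, ← ENNReal.tsum_mul_left]

theorem cs_gh [Nonempty ι] (ρ : R → ℝ≥0∞) (φ : ι → R → V → ℝ≥0∞) :
    ∃ a, cs ρ φ ≤ cs ρ fun _ : ι => φ a := by
  obtain ⟨a, -, ha⟩ := exists_max_image univ (fun a => cs ρ fun _ : ι => φ a) univ_nonempty
  refine ⟨a, ?_⟩
  have n0 : (Fintype.card ι : ℝ≥0∞) ≠ 0 := by exact_mod_cast Fintype.card_ne_zero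
  rw [← ENNReal.mul_le_mul_iff_right n0 (by simp)]
  calc (Fintype.card ι : ℝ≥0∞) * cs ρ φ
      ≤ ∑' r, ∑ i, ρ r * (∑' v, φ i r v) ^ Fintype.card ι := by
        rw [cs_eq, ← ENNReal.tsum_mul_left]
        refine ENNReal.tsum_le_tsum fun r => ?_
        rw [mul_left_comm, ← mul_sum]
        exact mul_le_mul_right (amgm _) _
    _ = ∑ i, cs ρ fun _ : ι => φ i := by
        rw [Summable.tsum_finsetSum fun _ _ => ENNReal.summable]
        exact sum_congr rfl fun i _ => by simp [cs_eq]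
    _ ≤ _ := by
        rw [← nsmul_eq_mul, ← card_univ]
        exact sum_le_card_nsmul _ _ _ ha

theorem pow_tan {q n : ℕ} (h : q ≤ n) (x L : ℝ≥0∞) :
    n * (x ^ q * L ^ (n - q)) ≤ q * x ^ n + (n - q : ℕ) * L ^ n := by
  rcases Nat.eq_zero_or_pos n with rfl | n0
  · simp
  obtain ⟨k, rfl⟩ := Nat.exists_eq_add_of_le h
  have : Nonempty (Fin q ⊕ Fin k) := Fintype.card_pos_iff.1 (by simpa using n0)
  have := amgm (Sum.elim (fun _ : Fin q => x) fun _ : Fin k => L)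
  simpa [Fintype.prod_sum_type, Fintype.sum_sum_type] using this

/-- regridding -/
theorem cs_regrid [Nonempty ι] (h : Fintype.card ι ≤ Fintype.card ι') (ρ : R → ℝ≥0∞)
    (φ : R → V → ℝ≥0∞) {L : ℝ≥0∞} (hL : L ≠ ⊤) (hρ : ∑' r, ρ r ≠ ⊤)
    (H : L ^ Fintype.card ι * ∑' r, ρ r ≤ cs ρ fun _ : ι => φ) :
    L ^ Fintype.card ι' * ∑' r, ρ r ≤ cs ρ fun _ : ι' => φ := by
  have q0 : Fintype.card ι ≠ 0 := Fintype.card_ne_zero
  simp only [cs_eq, prod_const, card_univ] at H ⊢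
  generalize Fintype.card ι = q at *
  generalize Fintype.card ι' = n at *
  obtain ⟨k, rfl⟩ := Nat.exists_eq_add_of_le h
  have f : (k : ℝ≥0∞) * (L ^ (q + k) * ∑' r, ρ r) ≠ ⊤ := by finiteness
  have q1 : (q : ℝ≥0∞) ≠ 0 := by exact_mod_cast q0
  rw [← ENNReal.mul_le_mul_iff_right q1 (by simp), ← ENNReal.add_le_add_iff_right f]
  calc (q : ℝ≥0∞) * (L ^ (q + k) * ∑' r, ρ r) + k * (L ^ (q + k) * ∑' r, ρ r)
      = (q + k : ℕ) * L ^ k * (L ^ q * ∑' r, ρ r) := by push_cast; ring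
    _ ≤ (q + k : ℕ) * L ^ k * ∑' r, ρ r * (∑' v, φ r v) ^ q := mul_le_mul_right H _
    _ ≤ ∑' r, (q * (ρ r * (∑' v, φ r v) ^ (q + k)) + k * (L ^ (q + k) * ρ r)) := by
        rw [← ENNReal.tsum_mul_left]
        refine ENNReal.tsum_le_tsum fun r => ?_
        have := mul_le_mul_right (pow_tan h (∑' v, φ r v) L) (ρ r)
        rw [Nat.add_sub_cancel_left] at this
        convert this using 1 <;> ring
    _ = _ := by
        rw [ENNReal.tsum_add, ENNReal.tsum_mul_left, ENNReal.tsum_mul_left, ENNReal.tsum_mul_left]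

/-- nonnegative real sums seen in `ℝ≥0∞` -/
def es {Y : Type*} (F : Y → ℝ) : ℝ≥0∞ := ∑' y, ENNReal.ofReal (F y)

theorem es_eq {Y : Type*} {F : Y → ℝ} (h0 : ∀ y, 0 ≤ F y) (hs : Summable F) :
    es F = ENNReal.ofReal (∑' y, F y) := (ENNReal.ofReal_tsum_of_nonneg h0 hs).symm

theorem es_summable {Y : Type*} {F : Y → ℝ} (h0 : ∀ y, 0 ≤ F y) (h : es F ≠ ⊤) : Summable F := by
  simpa [ENNReal.toReal_ofReal (h0 _)] using ENNReal.summable_toReal h

variable {Y Y' : Type*} {ρ : R → ℝ}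

theorem es_cs (e : R × (ι → V) ≃ Y) {F : Y → ℝ} {φ : ι → R → V → ℝ} (ρ0 : ∀ r, 0 ≤ ρ r)
    (φ0 : ∀ i r v, 0 ≤ φ i r v) (hF : ∀ r v, F (e (r, v)) = ρ r * ∏ i, φ i r (v i)) :
    es F = cs (fun r => ENNReal.ofReal (ρ r)) fun i r v => ENNReal.ofReal (φ i r v) := by
  rw [es, ← e.tsum_eq]
  exact tsum_congr fun p => by
    rw [hF, ENNReal.ofReal_mul (ρ0 _), ENNReal.ofReal_prod_of_nonneg fun i _ => φ0 _ _ _]

theorem nn_of (e : R × (ι → V) ≃ Y) {F : Y → ℝ} {φ : ι → R → V → ℝ} (ρ0 : ∀ r, 0 ≤ ρ r)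
    (φ0 : ∀ i r v, 0 ≤ φ i r v) (hF : ∀ r v, F (e (r, v)) = ρ r * ∏ i, φ i r (v i)) (y : Y) :
    0 ≤ F y := by
  obtain ⟨⟨r, v⟩, rfl⟩ := e.surjective y
  rw [hF]
  exact mul_nonneg (ρ0 _) (prod_nonneg fun i _ => φ0 _ _ _)

/-- Gowers–Hölder in one block: the data of one clone may be replicated -/
theorem gh [Nonempty ι] (e : R × (ι → V) ≃ Y) {F : Y → ℝ} {G : ι → Y → ℝ} {φ : ι → R → V → ℝ}
    (ρ0 : ∀ r, 0 ≤ ρ r) (φ0 : ∀ i r v, 0 ≤ φ i r v)
    (hF : ∀ r v, F (e (r, v)) = ρ r * ∏ i, φ i r (v i))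
    (hG : ∀ a r v, G a (e (r, v)) = ρ r * ∏ i, φ a r (v i)) (sG : ∀ a, Summable (G a)) :
    Summable F ∧ ∃ a, ∑' y, F y ≤ ∑' y, G a y := by
  obtain ⟨a, ha⟩ := cs_gh (fun r => ENNReal.ofReal (ρ r)) fun i r v => ENNReal.ofReal (φ i r v)
  have g0 := nn_of e (φ := fun _ => φ a) ρ0 (fun _ => φ0 a) (hG a)
  rw [← es_cs e ρ0 φ0 hF, ← es_cs e (φ := fun _ => φ a) ρ0 (fun _ => φ0 a) (hG a),
    es_eq g0 (sG a)] at ha
  have sF := es_summable (nn_of e ρ0 φ0 hF) (ne_top_of_le_ne_top ENNReal.ofReal_ne_top ha)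
  refine ⟨sF, a, ?_⟩
  rwa [es_eq (nn_of e ρ0 φ0 hF) sF, ENNReal.ofReal_le_ofReal_iff (tsum_nonneg g0)] at ha

/-- regridding one block -/
theorem regrid [Nonempty ι] (h : Fintype.card ι ≤ Fintype.card ι') (e : R × (ι → V) ≃ Y)
    (e' : R × (ι' → V) ≃ Y') {F : Y → ℝ} {F' : Y' → ℝ} {φ : R → V → ℝ} (ρ0 : ∀ r, 0 ≤ ρ r)
    (φ0 : ∀ r v, 0 ≤ φ r v) (hF : ∀ r v, F (e (r, v)) = ρ r * ∏ i, φ r (v i))
    (hF' : ∀ r v, F' (e' (r, v)) = ρ r * ∏ i, φ r (v i)) (sρ : Summable ρ) (sF : Summable F)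
    (sF' : Summable F') {L : ℝ} (hL : 0 ≤ L) (H : L ^ Fintype.card ι * ∑' r, ρ r ≤ ∑' y, F y) :
    L ^ Fintype.card ι' * ∑' r, ρ r ≤ ∑' y, F' y := by
  have f0 := nn_of e (φ := fun _ => φ) ρ0 (fun _ => φ0) hF
  have f1 := nn_of e' (φ := fun _ => φ) ρ0 (fun _ => φ0) hF'
  have k : ∑' r, ENNReal.ofReal (ρ r) = ENNReal.ofReal (∑' r, ρ r) := es_eq ρ0 sρ
  have := cs_regrid h (fun r => ENNReal.ofReal (ρ r)) (fun r v => ENNReal.ofReal (φ r v))
    (L := ENNReal.ofReal L) ENNReal.ofReal_ne_top (k ▸ ENNReal.ofReal_ne_top) (by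
      rw [← es_cs e (φ := fun _ => φ) ρ0 (fun _ => φ0) hF, es_eq f0 sF, k,
        ← ENNReal.ofReal_pow hL, ← ENNReal.ofReal_mul (by positivity)]
      exact ENNReal.ofReal_le_ofReal H)
  rwa [← es_cs e' (φ := fun _ => φ) ρ0 (fun _ => φ0) hF', es_eq f1 sF', k,
    ← ENNReal.ofReal_pow hL, ← ENNReal.ofReal_mul (by positivity),
    ENNReal.ofReal_le_ofReal_iff (tsum_nonneg f1)] at this

/-- Fubini over the clones -/
theorem fub (e : R × (ι → V) ≃ Y) {F : Y → ℝ} {φ : ι → R → V → ℝ}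
    (hF : ∀ r v, F (e (r, v)) = ρ r * ∏ i, φ i r (v i)) (sF : Summable F)
    (ρ0 : ∀ r, 0 ≤ ρ r) (φ0 : ∀ i r v, 0 ≤ φ i r v) (sφ : ∀ i r, Summable (φ i r)) :
    HasSum (fun r => ρ r * ∏ i, ∑' v, φ i r v) (∑' y, F y) := by
  have n0 : ∀ r, 0 ≤ ρ r * ∏ i, ∑' v, φ i r v := fun r =>
    mul_nonneg (ρ0 _) (prod_nonneg fun i _ => tsum_nonneg (φ0 i r))
  have k : es F = es fun r => ρ r * ∏ i, ∑' v, φ i r v := by
    rw [es_cs e ρ0 φ0 hF, cs_eq]
    refine tsum_congr fun r => ?_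
    rw [ENNReal.ofReal_mul (ρ0 _), ENNReal.ofReal_prod_of_nonneg fun i _ => tsum_nonneg (φ0 i r)]
    exact congrArg _ (prod_congr rfl fun i _ => es_eq (φ0 i r) (sφ i r))
  have f0 := nn_of e ρ0 φ0 hF
  rw [es_eq f0 sF] at k
  have s := es_summable n0 (k ▸ ENNReal.ofReal_ne_top)
  rw [es_eq n0 s, ENNReal.ofReal_eq_ofReal_iff (tsum_nonneg f0) (tsum_nonneg n0)] at k
  exact k ▸ s.hasSum

/-- iterating the pick over the blocks -/
theorem gh_all {β D : Type*} {ι : β → Type*} {Λ : D → ℝ} {P : D → Prop} (c : ∀ b, ι b → D → D)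
    (hP : ∀ b a g, P g → P (c b a g)) (h : ∀ b g, P g → ∃ a, Λ g ≤ Λ (c b a g)) :
    ∀ (l : List β), l.Nodup → ∀ [∀ b, Nonempty (ι b)] (g : D), P g →
      ∃ a : ∀ b, ι b, Λ g ≤ Λ (l.foldr (fun b g => c b (a b) g) g) ∧
        P (l.foldr (fun b g => c b (a b) g) g)
  | [], _, _, g, hg => ⟨fun _ => Classical.arbitrary _, le_rfl, hg⟩
  | b :: l, n, _, g, hg => by
    classical
    obtain ⟨a, ha, pa⟩ := gh_all c hP h l (List.nodup_cons.1 n).2 g hg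
    obtain ⟨a', ha'⟩ := h b _ pa
    have k : l.foldr (fun b' g => c b' (Function.update a b a' b') g) g =
        l.foldr (fun b g => c b (a b) g) g := by
      refine List.foldr_ext _ _ _ fun b' hb' g => ?_
      rw [Function.update_of_ne (fun (e : b' = b) => (List.nodup_cons.1 n).1 (e ▸ hb'))]
    refine ⟨Function.update a b a', ?_, ?_⟩ <;> simp only [List.foldr_cons, k, Function.update_self]
    exacts [ha.trans ha', hP _ _ _ pa]

end Crest.Agent.N49.Ho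

end
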