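import Crest.Agent.N49.Ho.Fac
import Crest.Agent.N49.Rf.Nar

/-!
# Row 49 (helper1): one centre per type (Gowers–Hölder over all the blocks of a grid)
-/

set_option autoImplicit false
set_option linter.unusedSectionVars false

open Matrix Finset Function

noncomputable section

namespace Crest.Agent.N49.Ho

open Po Tw Tw.Db

variable {σ σ' ι C : Type} [Fintype ι] [Fintype C] [DecidableEq C]

namespace Cln

variable {T : TS σ} {p : C → Prop} [DecidablePred p] {em : ι → C → T.C}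
  {u : ι → (C → ℝ) → C → ℝ} {K : ι → Matrix C C ℝ}

theorem off (h : Cln T p em u K) (x : T.C → ℝ) :
    Cln (T.off x) p em (fun a y => u a y - fun c => x (em a c)) K where
  inj := h.inj
  com := h.com
  dis := h.dis
  sur := h.sur
  hu y a c := by rw [TS.off_u]; exact congrArg (· - x (em a c)) (h.hu y a c)
  low a y y' k c hc := congrArg (· - x (em a c)) (h.low a y y' k c hc)
  hK := h.hK
  hK0 := h.hK0
  sep := h.sep

theorem congr (h : Cln T p em u K) {u' : ι → (C → ℝ) → C → ℝ} {K' : ι → Matrix C C ℝ}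
    (e : u = u') (e' : K = K') : Cln T p em u' K' := e ▸ e' ▸ h

/-- forget the clone -/
def pr (h : Cln T p em u K) (x : T.C) : C := (h.sur x).choose_spec.choose

theorem pr_em (h : Cln T p em u K) (a : ι) (c : C) : h.pr (em a c) = c := by
  have k : em _ (h.pr (em a c)) = em a c := (h.sur (em a c)).choose_spec.choose_spec
  by_cases q : p c
  · exact h.inj _ (k.trans (h.com _ _ _ q))
  · exact h.inj a ((congrArg (em · (h.pr (em a c))) (h.dis _ _ _ _ q k.symm)).trans k)

/-- one centre per type in one block -/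
theorem gh_off {u : (C → ℝ) → C → ℝ} {K : Matrix C C ℝ} (h : Cln T p em (fun _ => u) fun _ => K)
    (hT : T.Tri) (b : ι) (x : T.C → ℝ) {G0 : (C → ℤ) → ℝ} {G : ι → (C → ℤ) → ℝ}
    (d0 : ∀ y y', (∀ c, p c → y c = y' c) → G0 y = G0 y') (n0 : ∀ y, 0 ≤ G0 y)
    (n1 : ∀ a y, 0 ≤ G a y) (b0 : Bb G0) (b1 : ∀ a, Bb (G a)) :
    ∃ a, ((T.off x).S fun y => G0 (fun c => y (em b c)) * ∏ i, G i fun c => y (em i c)) ≤
      (T.off fun c => x (em a (h.pr c))).S fun y =>
        G0 (fun c => y (em b c)) * ∏ i, G a fun c => y (em i c) := by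
  simpa using (h.off x).gh (hT.off x) b (S := fun a => T.off fun c => x (em a (h.pr c)))
    (em' := fun _ => em) (fun a => (h.off _).congr (by simp only [h.pr_em]) rfl)
    (fun a => hT.off _) d0 n0 n1 b0 b1 (z := fun _ => 1) fun _ => one_pos

end Cln

/-- a block of a grid: clone structure of `T`, compatible with the points `Ω` (evaluation `pt`);
`rt a`, `rp a` replace the clone by `a` in a coordinate, in a point -/
def Bk (T : TS σ) {Ω V ι : Type} [Fintype Ω] [Fintype ι] (pt : (T.C → ℤ) → Ω → V)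
    (rt : ι → T.C → T.C) (rp : ι → Ω → Ω) : Prop :=
  ∃ (C : Type) (_ : Fintype C) (_ : DecidableEq C) (p : C → Prop) (em : ι → C → T.C)
    (u : (C → ℝ) → C → ℝ) (K : Matrix C C ℝ) (Ω1 : Type) (_ : Fintype Ω1) (e : ι × Ω1 ≃ Ω)
    (pt1 : (C → ℤ) → Ω1 → V), Cln T p em (fun _ => u) (fun _ => K) ∧
      (∀ a a' c, rt a (em a' c) = em a c) ∧ (∀ a a' w, rp a (e (a', w)) = e (a, w)) ∧
      ∀ y a w, pt y (e (a, w)) = pt1 (fun c => y (em a c)) w

theorem Bk.gh {T : TS σ} {Ω V : Type} [Fintype Ω] {pt : (T.C → ℤ) → Ω → V} {rt : ι → T.C → T.C}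
    {rp : ι → Ω → Ω} (h : Bk T pt rt rp) [Nonempty ι] (hT : T.Tri) (x : T.C → ℝ) {g : Ω → V → ℝ}
    (n1 : ∀ w v, 0 ≤ g w v) (b1 : ∀ w, Bb (g w)) :
    ∃ a, ((T.off x).S fun y => ∏ w, g w (pt y w)) ≤
      (T.off fun c => x (rt a c)).S fun y => ∏ w, g (rp a w) (pt y w) := by
  classical
  obtain ⟨C, _, _, p, em, u, K, Ω1, _, e, pt1, h, h1, h2, h3⟩ := h
  obtain ⟨a, ha⟩ := h.gh_off hT (Classical.arbitrary ι) x (G0 := fun _ => 1)
    (G := fun i y => ∏ w, g (e (i, w)) (pt1 y w)) (fun _ _ _ => rfl) (fun _ => zero_le_one)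
    (fun _ _ => prod_nonneg fun _ _ => n1 _ _) (Bb.const _)
    fun a => Bb.prod _ fun w _ => (b1 _).comp _
  refine ⟨a, ?_⟩
  have k : (fun c => x (rt a c)) = fun c => x (em a (h.pr c)) := funext fun c => by
    obtain ⟨a', c, rfl⟩ := h.sur c
    rw [h1, h.pr_em]
  rw [k]
  simp only [← e.prod_comp, Fintype.prod_prod_type, h2, h3]
  simpa only [one_mul] using ha

/-- **Gowers–Hölder over all the blocks**: the centres and the vertex functions of one vertex -/
theorem unif {T : TS σ} {Ω V β : Type} [Fintype Ω] {ι : β → Type} [∀ b, Fintype (ι b)]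
    [∀ b, Nonempty (ι b)] {pt : (T.C → ℤ) → Ω → V} {rt : ∀ b, ι b → T.C → T.C}
    {rp : ∀ b, ι b → Ω → Ω} (h : ∀ b, Bk T pt (rt b) (rp b)) (hT : T.Tri) {l : List β}
    (hl : l.Nodup) (x : T.C → ℝ) {g : Ω → V → ℝ} (n1 : ∀ w v, 0 ≤ g w v) (b1 : ∀ w, Bb (g w)) :
    ∃ a : ∀ b, ι b, ((T.off x).S fun y => ∏ w, g w (pt y w)) ≤
      (T.off fun c => x (l.foldl (fun c b => rt b (a b) c) c)).S fun y =>
        ∏ w, g (l.foldl (fun w b => rp b (a b) w) w) (pt y w) := by
  obtain ⟨a, ha, -⟩ := gh_all (D := (T.C → ℝ) × (Ω → V → ℝ))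
    (Λ := fun d => (T.off d.1).S fun y => ∏ w, d.2 w (pt y w))
    (P := fun d => (∀ w v, 0 ≤ d.2 w v) ∧ ∀ w, Bb (d.2 w))
    (fun b a d => (fun c => d.1 (rt b a c), fun w => d.2 (rp b a w)))
    (fun _ _ _ k => ⟨fun _ => k.1 _, fun _ => k.2 _⟩) (fun b d k => (h b).gh hT d.1 k.1 k.2)
    l hl (x, g) ⟨n1, b1⟩
  refine ⟨a, ha.trans_eq ?_⟩
  have k : ∀ l : List β, l.foldr (fun b (d : (T.C → ℝ) × (Ω → V → ℝ)) =>
      (fun c => d.1 (rt b (a b) c), fun w => d.2 (rp b (a b) w))) (x, g) =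
      (fun c => x (l.foldl (fun c b => rt b (a b) c) c),
        fun w => g (l.foldl (fun w b => rp b (a b) w) w)) := fun l => by
    induction l with
    | nil => rfl
    | cons b l ih => rw [List.foldr_cons, ih]; rfl
  rw [k]

/-- the iterated retraction fixes all the addresses -/
theorem foldl_ad {X β Y : Type*} {ι : β → Type*} {r : ∀ b, ι b → X → X} {ad : ∀ b, X → Option (ι b)}
    {ty : X → Y} (h0 : ∀ b a x, ty (r b a x) = ty x)
    (h1 : ∀ b a x, ad b (r b a x) = (ad b x).map fun _ => a)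
    (h2 : ∀ b b' a x, b' ≠ b → ad b' (r b a x) = ad b' x) (a : ∀ b, ι b) :
    ∀ (l : List β) (x : X), ty (l.foldl (fun x b => r b (a b) x) x) = ty x ∧
      ∀ b ∈ l, ad b (l.foldl (fun x b => r b (a b) x) x) = (ad b x).map fun _ => a b := by
  have k : ∀ (l : List β) (x : X) b, (ad b (l.foldl (fun x b => r b (a b) x) x) = ad b x ∨
      ad b (l.foldl (fun x b => r b (a b) x) x) = (ad b x).map fun _ => a b) := fun l => by
    induction l with
    | nil => exact fun _ _ => .inl rfl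
    | cons c l ih =>
      intro x b
      rw [List.foldl_cons]
      by_cases e : b = c
      · subst e
        rcases ih (r b (a b) x) b with k | k <;> rw [k, h1] <;> cases ad b x <;> simp
      · rcases ih (r c (a c) x) b with k | k <;> rw [k, h2 _ _ _ _ e] <;> simp
  intro l
  induction l with
  | nil => simp
  | cons c l ih =>
    intro x
    rw [List.foldl_cons]
    refine ⟨(ih _).1.trans (h0 ..), fun b hb => ?_⟩
    by_cases e : b = c
    · subst e
      rcases k l (r b (a b) x) b with k | k <;> rw [k, h1]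
      cases ad b x <;> simp
    · rw [(ih _).2 b ((List.mem_cons.1 hb).resolve_left e), h2 _ _ _ _ e]

end Crest.Agent.N49.Ho

end
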