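import Crest.Agent.N49.Ho.Off
import Crest.Agent.N49.Tw.Sa
import Crest.Agent.N49.Tw.Tw

/-!
# Row 49 (helper1): shapes made of clones; Gowers–Hölder, regridding, Fubini for twisted laws
-/

set_option autoImplicit false
set_option linter.unusedSectionVars false

open Matrix MvPolynomial Finset Function

noncomputable section

namespace Crest.Agent.N49.Ho

open Po Tw Tw.Db Tw.Sh

variable {σ τ τ' τ₁ ι ι' : Type} {S : Sh σ τ} {S' : Sh σ τ'} {S₁ : Sh σ τ₁}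

/-- the matrix of `x = f w` -/
def pj {A B : Type} [DecidableEq B] (f : A → B) : Matrix A B ℤ :=
  Matrix.of fun w x => if x = f w then 1 else 0

theorem pj_mulVec {A B : Type} [Fintype B] [DecidableEq B] (f : A → B) (v : B → ℤ) (w : A) :
    (pj f *ᵥ v) w = v (f w) := by simp [pj, mulVec, dotProduct]

section
variable {R : Type} [CommRing R] {f : S₁.W → S.W}

theorem hA_X' (φ : Matrix S₁.W S.W ℤ) (x : S.W) : hA R S₁ φ (X x) = S₁.el fun w => φ w x :=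
  aeval_X _ _

theorem hA_X (hf : Injective f) (w : S₁.W) : hA R S₁ (pj f) (X (f w)) = X w := by
  simp [hA, Sh.el, pj, hf.eq_iff]

theorem hA_X0 {x : S.W} (h : ∀ w, f w ≠ x) : hA R S₁ (pj f) (X x) = 0 := by
  simp [hA, Sh.el, pj, fun w => (h w).symm]

theorem hA_pj (f : S₁.W → S'.W) (g : S'.W → S.W) (P : MvPolynomial S.W R) :
    hA R S₁ (pj f) (hA R S' (pj g) P) = hA R S₁ (pj fun w => g (f w)) P := by
  have : (hA R S₁ (pj f)).comp (hA R S' (pj g)) = hA R S₁ (pj fun w => g (f w)) :=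
    algHom_ext fun x => by
      rw [AlgHom.comp_apply, hA_X', hA_el, hA_X']
      exact congrArg _ (funext fun w => by rw [pj_mulVec]; simp [pj])
  rw [← AlgHom.comp_apply, this]

theorem cf_em (hf : Injective f) {w : S₁.W} (hr : ∀ m, S.r (f w) (m.mapDomain f) = S₁.r w m)
    (loc : ∀ m, S.r (f w) m ≠ 0 → ∀ x ∈ m.support, ∃ w', f w' = x) (P : MvPolynomial S.W R) :
    S.cf R (f w) P = S₁.cf R w (hA R S₁ (pj f) P) := by
  induction P using MvPolynomial.induction_on' with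
  | add P Q a b => rw [map_add, map_add, map_add, a, b]
  | monomial m c =>
    by_cases k : ∀ x ∈ m.support, ∃ w', f w' = x
    · obtain ⟨m, rfl⟩ : ∃ m' : S₁.W →₀ ℕ, m'.mapDomain f = m :=
        ⟨_, Finsupp.mapDomain_comapDomain f hf m fun x hx => k x hx⟩
      have : (hA R S₁ (pj f)).comp (rename f) = AlgHom.id _ _ :=
        algHom_ext fun w => by simp [hA_X hf]
      rw [cf_monomial, hr, ← rename_monomial, ← AlgHom.comp_apply, this, AlgHom.id_apply,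
        cf_monomial]
    · rw [cf_monomial, not_not.1 (mt (loc m) k)]
      push Not at k
      obtain ⟨x, hx, k⟩ := k
      rw [monomial_eq, map_mul, Finsupp.prod, map_prod, prod_eq_zero hx, mul_zero, map_zero,
        Int.cast_zero, mul_zero]
      rw [map_pow, hA_X0 k, zero_pow (Finsupp.mem_support_iff.1 hx)]

end

variable [DecidableEq σ] (T : TS σ)

/-- the map of the coordinates -/
def fc {f : S₁.W → S.W} (cd : ∀ w, S.cd (f w) = S₁.cd w) (q : T.Cw S₁) : T.Cw S :=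
  ⟨(q.1.1, f q.1.2), (cd _).trans q.2⟩

variable {T} {f : S₁.W → S.W}

theorem tp_pj (f : S₁.W → S'.W) (g : S'.W → S.W) (Ψ : T.Twd S) :
    T.tp S' S₁ (pj f) (T.tp S S' (pj g) Ψ) = T.tp S S₁ (pj fun w => g (f w)) Ψ := by
  funext F
  rw [TS.tp, TS.tp, TS.tp, MvPolynomial.map_map]
  exact congrArg (MvPolynomial.map · (Ψ F)) (RingHom.ext fun P => hA_pj f g P)

theorem tp_pj' {f : S₁.W → S'.W} {g : S'.W → S.W} {k : S₁.W → S.W} (h : ∀ w, g (f w) = k w)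
    (Ψ : T.Twd S) : T.tp S' S₁ (pj f) (T.tp S S' (pj g) Ψ) = T.tp S S₁ (pj k) Ψ := by
  rw [tp_pj, funext h]

theorem tp_id (Ψ : T.Twd S) : T.tp S S (pj id) Ψ = Ψ := by
  funext F
  have : S.pu S (pj id) = RingHom.id _ := RingHom.ext fun P =>
    DFunLike.congr_fun (show hA ℝ S (pj id) = AlgHom.id _ _ from
      algHom_ext fun w => hA_X (f := id) injective_id w) P
  rw [TS.tp, this, MvPolynomial.map_id]

theorem fc_inj (cd : ∀ w, S.cd (f w) = S₁.cd w) (hf : Injective f) : Injective (fc T cd) :=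
  fun _ _ h => Subtype.ext (Prod.ext (congrArg (·.1.1) h) (hf (congrArg (·.1.2) h)))

theorem sum_fc {M : Type*} [AddCommMonoid M] (cd : ∀ w, S.cd (f w) = S₁.cd w) (hf : Injective f)
    (F : T.C) {g : T.Cw S → M} (h : ∀ x, (∀ w, f w ≠ x.1.2) → g x = 0) :
    ∑ x : T.Cw S with x.1.1 = F, g x = ∑ q : T.Cw S₁ with q.1.1 = F, g (fc T cd q) := by
  refine (sum_of_injOn (fc T cd) (fc_inj cd hf).injOn (fun q hq => ?_) (fun x hx k => h x ?_)
    fun _ _ => rfl).symm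
  · simpa [fc] using hq
  · rintro w e
    exact k ⟨⟨(x.1.1, w), (cd w).symm.trans (e ▸ x.2)⟩, by simpa using hx,
      Subtype.ext (Prod.ext rfl e)⟩

theorem hA_Yw {R : Type} [CommRing R] (cd : ∀ w, S.cd (f w) = S₁.cd w) (hf : Injective f)
    (y : T.Cw S → R) (F : T.C) :
    hA R S₁ (pj f) (T.Yw S y F) = T.Yw S₁ (fun q => y (fc T cd q)) F := by
  rw [TS.Yw, map_sum, sum_fc cd hf F fun x k => by rw [map_mul, hA_X0 k, mul_zero]]
  exact sum_congr rfl fun q _ => by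
    rw [map_mul, show (fc T cd q).1.2 = f q.1.2 from rfl, hA_X hf, algHom_C, algebraMap_eq]

theorem pw_fc (cd : ∀ w, S.cd (f w) = S₁.cd w) (hf : Injective f) {χ : S.W → ℤ}
    (h : ∀ x, (∀ w, f w ≠ x) → χ x = 0) (y : T.Cw S → ℤ) :
    T.pw S χ y = T.pw S₁ (fun w => χ (f w)) fun q => y (fc T cd q) :=
  funext fun F => sum_fc cd hf F fun x k => by rw [h _ k, zero_mul]

/-- the errors of a twisted law -/
def ut (Ψ : T.Twd S) : (T.Cw S → ℝ) → T.Cw S → ℝ := (T.tw S Ψ).u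

theorem u_tw (Ψ : T.Twd S) (y : T.Cw S → ℝ) (q : T.Cw S) :
    (T.tw S Ψ).u y q = S.cf ℝ q.1.2 (MvPolynomial.eval (T.Yw S y) (Ψ q.1.1)) := by
  refine (cf_map (MvPolynomial.eval y) _ _).symm.trans (congrArg _ ?_)
  rw [eval₂_comp_left, ← coe_eval₂Hom, MvPolynomial.eval]
  congr 2
  · ext <;> simp
  · funext F
    simp [TS.map_Yw]

theorem u_fc (cd : ∀ w, S.cd (f w) = S₁.cd w) (hf : Injective f) (Ψ : T.Twd S) (y : T.Cw S → ℝ)
    (q : T.Cw S₁) (hr : ∀ m, S.r (f q.1.2) (m.mapDomain f) = S₁.r q.1.2 m)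
    (loc : ∀ m, S.r (f q.1.2) m ≠ 0 → ∀ x ∈ m.support, ∃ w', f w' = x) :
    (T.tw S Ψ).u y (fc T cd q) =
      (T.tw S₁ (T.tp S S₁ (pj f) Ψ)).u (fun q => y (fc T cd q)) q := by
  refine (u_tw ..).trans (Eq.trans ?_ (u_tw _ (fun q : T.Cw S₁ => y (fc T cd q)) q).symm)
  refine (cf_em hf hr loc _).trans (congrArg _ ?_)
  rw [TS.tp, eval_map, show T.Yw S₁ (fun q => y (fc T cd q)) = _ from
    funext fun F => (hA_Yw cd hf y F).symm]
  exact eval₂_comp_left (S.pu S₁ (pj f)) (RingHom.id _) (T.Yw S y) (Ψ q.1.1)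

theorem u_idl {p : S.W → Prop} (h : S.Idl p) (Ψ : T.Twd S) {y y' : T.Cw S → ℝ}
    (k : ∀ c : T.Cw S, p c.1.2 → y c = y' c) (c : T.Cw S) (hc : p c.1.2) :
    (T.tw S Ψ).u y c = (T.tw S Ψ).u y' c := by
  classical
  have := fun y => u_fc (S₁ := S.sub p) (f := Subtype.val) (fun _ => rfl) Subtype.val_injective Ψ y
    ⟨(c.1.1, ⟨c.1.2, hc⟩), c.2⟩ (fun _ => rfl) fun m n x hx => ⟨⟨x, h _ m hc n x hx⟩, rfl⟩
  refine (this y).trans (Eq.trans ?_ (this y').symm)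
  congr 1
  exact funext fun q => k _ q.1.2.2

/-- `S` is made of the clones `a : ι` of `S₁`, glued along the quotient `p` -/
structure ShCl (S : Sh σ τ) (S₁ : Sh σ τ₁) (p : S₁.W → Prop) (em : ι → S₁.W → S.W) : Prop where
  inj : ∀ a, Injective (em a)
  com : ∀ a a' w, p w → em a w = em a' w
  dis : ∀ a a' w w', ¬ p w → em a w = em a' w' → a = a'
  sur : ∀ x, ∃ a w, em a w = x
  cd : ∀ a w, S.cd (em a w) = S₁.cd w
  r : ∀ a w m, S.r (em a w) (m.mapDomain (em a)) = S₁.r w m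
  loc : ∀ a w m, S.r (em a w) m ≠ 0 → ∀ x ∈ m.support, ∃ w', em a w' = x
  eps : ∀ a w, S.ε (em a w) = S₁.ε w
  idl : S₁.Idl p
  hK : ∀ a w w', S.K (em a w) (em a w') = S₁.K w w'
  hK0 : ∀ a a' w w', a ≠ a' → ¬ p w → ¬ p w' → S.K (em a w) (em a' w') = 0
  sep : ∀ w w', p w → ¬ p w' → S₁.K w w' = 0

namespace ShCl

variable {p : S₁.W → Prop} {em : ι → S₁.W → S.W} {em' : ι' → S₁.W → S'.W}

/-- forget the clone -/
def pr (h : ShCl S S₁ p em) (x : S.W) : S₁.W := (h.sur x).choose_spec.choose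

theorem pr_em (h : ShCl S S₁ p em) (a : ι) (c : S₁.W) : h.pr (em a c) = c := by
  have k : em _ (h.pr (em a c)) = em a c := (h.sur (em a c)).choose_spec.choose_spec
  by_cases q : p c
  · exact h.inj _ (k.trans (h.com _ _ _ q))
  · exact h.inj a ((congrArg (em · (h.pr (em a c))) (h.dis _ _ _ _ q k.symm)).trans k)

theorem cln (h : ShCl S S₁ p em) (st : T.C → ℕ) (Ψ : T.Twd S) :
    Cln (T.lw S st Ψ) (fun q : T.Cw S₁ => p q.1.2) (fun a => fc T (h.cd a))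
      (fun a => ut (T.tp S S₁ (pj (em a)) Ψ)) fun _ => T.kw S₁ T.K S₁.K where
  inj a := fc_inj _ (h.inj a)
  com a a' _ k := Subtype.ext (Prod.ext rfl (h.com a a' _ k))
  dis a a' _ _ k e := h.dis a a' _ _ k (congrArg (·.1.2) e)
  sur x := by
    obtain ⟨a, w, e⟩ := h.sur x.1.2
    exact ⟨a, ⟨(x.1.1, w), (h.cd a w).symm.trans (e ▸ x.2)⟩, Subtype.ext (Prod.ext rfl e)⟩
  hu y a c := u_fc (h.cd a) (h.inj a) Ψ y c (h.r a _) (h.loc a _)
  low _ _ _ k c hc := u_idl h.idl _ k c hc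
  hK a c c' := congrArg (T.K c.1.1 c'.1.1 * ·) (h.hK a _ _)
  hK0 a a' c c' n k k' := (congrArg (T.K c.1.1 c'.1.1 * ·) (h.hK0 a a' _ _ n k k')).trans
    (mul_zero _)
  sep _ c c' k k' := (congrArg (T.K c.1.1 c'.1.1 * ·) (h.sep _ _ k k')).trans (mul_zero _)

theorem hA_rt {R : Type} [CommRing R] {rt : S.W → S.W} {a : ι}
    (hr : ∀ a' w, rt (em a' w) = em a w) (a' : ι) (P : MvPolynomial S.W R) :
    hA R S₁ (pj (em a')) (hA R S (pj rt) P) = hA R S₁ (pj (em a)) P := by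
  rw [hA_pj, show (fun w => rt (em a' w)) = em a from funext (hr a')]

/-- replicating the clone `a` is a morphism -/
theorem hm_rt (h : ShCl S S₁ p em) {rt : S.W → S.W} {a : ι}
    (hr : ∀ a' w, rt (em a' w) = em a w) : S.Hm S (pj rt) where
  cd x' x k := by
    obtain ⟨a', w, rfl⟩ := h.sur x'
    obtain rfl : x = em a w := by simpa [pj, hr] using k
    rw [h.cd, h.cd]
  mul x' m _ := by
    obtain ⟨a', w, rfl⟩ := h.sur x'
    refine (pj_mulVec rt (fun x => S.r x m) _).trans ?_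
    rw [cf_em (h.inj a') (h.r a' w) (h.loc a' w), ← hA, hA_rt hr,
      ← cf_em (h.inj a) (h.r a w) (h.loc a w), cf_monomial, hr]
    simp
  mass := funext fun x => by
    obtain ⟨a', w, rfl⟩ := h.sur x
    rw [pj_mulVec, hr, h.eps, h.eps]

theorem tp_rt {rt : S.W → S.W} {a : ι} (hr : ∀ a' w, rt (em a' w) = em a w) (a' : ι)
    (Ψ : T.Twd S) :
    T.tp S S₁ (pj (em a')) (T.tp S S (pj rt) Ψ) = T.tp S S₁ (pj (em a)) Ψ := by
  rw [tp_pj, show (fun w => rt (em a' w)) = em a from funext (hr a')]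

variable [Fintype ι] [Fintype ι'] [DecidablePred p] {st : T.C → ℕ}
  {G0 : (T.Cw S₁ → ℤ) → ℝ}

/-- Gowers–Hölder in one block for twisted laws -/
theorem gh (h : ShCl S S₁ p em) {rt : ι → S.W → S.W} (hr : ∀ a a' w, rt a (em a' w) = em a w)
    {Ψ : T.Twd S} (hT : (T.lw S st Ψ).Tri) (hS : ∀ a, (T.lw S st (T.tp S S (pj (rt a)) Ψ)).Tri)
    (b : ι) {G : ι → (T.Cw S₁ → ℤ) → ℝ}
    (d0 : ∀ y y', (∀ c : T.Cw S₁, p c.1.2 → y c = y' c) → G0 y = G0 y') (n0 : ∀ y, 0 ≤ G0 y)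
    (n1 : ∀ a y, 0 ≤ G a y) (b0 : Bb G0) (b1 : ∀ a, Bb (G a)) :
    ∃ a, ((T.tw S Ψ).S fun y => G0 (fun c => y (fc T (h.cd b) c)) *
        ∏ i, G i fun c => y (fc T (h.cd i) c)) ≤
      (T.tw S (T.tp S S (pj (rt a)) Ψ)).S fun y => G0 (fun c => y (fc T (h.cd b) c)) *
        ∏ i, G a fun c => y (fc T (h.cd i) c) := by
  have := (h.cln st Ψ).gh hT b (S := fun a => T.lw S st (T.tp S S (pj (rt a)) Ψ))
    (em' := fun _ a => fc T (h.cd a))
    (fun a => (h.cln st _).congr (by simp only [tp_rt (hr a)]) rfl) hS d0 n0 n1 b0 b1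
    (z := fun _ => 1) fun _ => one_pos
  simp only [prod_const_one, one_pow, div_one] at this
  exact this

/-- regridding one block: the twists `Ψ`, `Ψ'` induce `Ψ₁` on every clone -/
theorem regrid (h : ShCl S S₁ p em) (h' : ShCl S' S₁ p em') {Ψ : T.Twd S} {Ψ' : T.Twd S'}
    {Ψ₁ : T.Twd S₁} (e : ∀ a, T.tp S S₁ (pj (em a)) Ψ = Ψ₁)
    (e' : ∀ a, T.tp S' S₁ (pj (em' a)) Ψ' = Ψ₁) (hT : (T.lw S st Ψ).Tri)
    (hT' : (T.lw S' st Ψ').Tri)
    (h1 : Summable ((T.tw S₁ Ψ₁).cut (fun q : T.Cw S₁ => p q.1.2) 0).wt) (b : ι) (b' : ι')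
    (hc : Fintype.card ι ≤ Fintype.card ι') {G : (T.Cw S₁ → ℤ) → ℝ}
    (d0 : ∀ y y', (∀ c : T.Cw S₁, p c.1.2 → y c = y' c) → G0 y = G0 y') (n0 : ∀ y, 0 ≤ G0 y)
    (n1 : ∀ y, 0 ≤ G y) (b0 : Bb G0) (b1 : Bb G) {L : ℝ} (hL : 0 ≤ L)
    (H : L ^ Fintype.card ι * (((T.tw S₁ Ψ₁).cut (fun q : T.Cw S₁ => p q.1.2) 0).S fun r =>
        G0 (glue (fun q : T.Cw S₁ => p q.1.2) r 0)) ≤
      (T.tw S Ψ).S fun y => G0 (fun c => y (fc T (h.cd b) c)) *
        ∏ i, G fun c => y (fc T (h.cd i) c)) :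
    L ^ Fintype.card ι' * (((T.tw S₁ Ψ₁).cut (fun q : T.Cw S₁ => p q.1.2) 0).S fun r =>
        G0 (glue (fun q : T.Cw S₁ => p q.1.2) r 0)) ≤
      (T.tw S' Ψ').S fun y => G0 (fun c => y (fc T (h'.cd b') c)) *
        ∏ i, G fun c => y (fc T (h'.cd i) c) := by
  have k : (((T.tw S₁ Ψ₁).cut (fun q : T.Cw S₁ => p q.1.2) 0).S fun r =>
      G0 (glue (fun q : T.Cw S₁ => p q.1.2) r 0)) = ∑' r, rho (fun q : T.Cw S₁ => p q.1.2)
        (ut Ψ₁) (T.kw S₁ T.K S₁.K) r * G0 (mg (fun q : T.Cw S₁ => p q.1.2) r 0) :=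
    tsum_congr fun r => by
      rw [← rho_cut (T.tw S₁ Ψ₁), d0 _ (mg (fun q : T.Cw S₁ => p q.1.2) r 0) fun c hc => by
        simp [mg, hc, glue]]
      rfl
  rw [k] at H ⊢
  rw [← rho_cut (T.tw S₁ Ψ₁)] at h1
  exact Cln.regrid (u := ut Ψ₁) ((h.cln st Ψ).congr (by simp only [e]) rfl)
    ((h'.cln st Ψ').congr (by simp only [e']) rfl) hT hT' b b' hc h1 d0 n0 n1 b0 b1 hL H

end ShCl

end Crest.Agent.N49.Ho

end
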